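import Vale.Agent.P133.Defs

set_option linter.unusedSectionVars false

namespace Vale.Agent.P133

variable {A : Type*} [NonUnitalCStarAlgebra A] [PartialOrder A] [StarOrderedRing A]

section funcs

/-- ramp from `c` to `2c` -/
noncomputable def ramp (c t : ℝ) : ℝ := max 0 (min 1 (t / c - 1))

noncomputable def scut (c t : ℝ) : ℝ := Real.sqrt (max (t - c) 0)

noncomputable def lone (c t : ℝ) : ℝ := scut c t / max t c

noncomputable def ltwo (c t : ℝ) : ℝ := scut c t / max (max (t - c) 0) c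

noncomputable def inv1 (c t : ℝ) : ℝ := t / (max t c * max t c)

lemma continuous_ramp (c : ℝ) : Continuous (ramp c) := by unfold ramp; fun_prop

lemma ramp_zero (c : ℝ) : ramp c 0 = 0 := by simp [ramp]

lemma ramp_nonneg (c t : ℝ) : 0 ≤ ramp c t := le_max_left _ _

lemma ramp_le_one (c t : ℝ) : ramp c t ≤ 1 := max_le zero_le_one (min_le_left _ _)

lemma ramp_eq_one {c t : ℝ} (hc : 0 < c) (h : 2 * c ≤ t) : ramp c t = 1 := by
  have : (2:ℝ) ≤ t / c := by rw [le_div_iff₀ hc]; linarith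
  unfold ramp
  rw [min_eq_left (by linarith)]; simp

lemma ramp_eq_zero {c t : ℝ} (hc : 0 < c) (h : t ≤ c) : ramp c t = 0 := by
  have : t / c ≤ 1 := by rw [div_le_one hc]; exact h
  unfold ramp
  exact max_eq_left ((min_le_right _ _).trans (by linarith))

lemma continuous_scut (c : ℝ) : Continuous (scut c) := by unfold scut; fun_prop

lemma scut_zero {c : ℝ} (hc : 0 < c) : scut c 0 = 0 := by
  simp [scut, hc.le]

lemma scut_mul_self (c t : ℝ) : scut c t * scut c t = max (t - c) 0 :=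
  Real.mul_self_sqrt (le_max_right _ _)

lemma scut_eq_zero {c t : ℝ} (h : t ≤ c) : scut c t = 0 := by
  simp [scut, h]

lemma continuous_lone {c : ℝ} (hc : 0 < c) : Continuous (lone c) :=
  (continuous_scut c).div (by fun_prop) fun t => (lt_max_of_lt_right hc).ne'

lemma lone_zero {c : ℝ} (hc : 0 < c) : lone c 0 = 0 := by simp [lone, scut_zero hc]

lemma id_mul_lone {c : ℝ} (hc : 0 < c) (t : ℝ) : t * lone c t = scut c t := by
  rcases le_or_gt t c with h | h
  · simp [lone, scut_eq_zero h]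
  · rw [lone, max_eq_left h.le]; field_simp [show t ≠ 0 by linarith]

lemma continuous_inv1 {c : ℝ} (hc : 0 < c) : Continuous (inv1 c) :=
  continuous_id.div (by fun_prop) fun t => by
    have : 0 < max t c := lt_max_of_lt_right hc
    positivity

lemma inv1_zero (c : ℝ) : inv1 c 0 = 0 := by simp [inv1]

lemma abs_inv1_le {c t : ℝ} (hc : 0 < c) (ht : 0 ≤ t) : |inv1 c t| ≤ 1 / c := by
  have hm : 0 < max t c := lt_max_of_lt_right hc
  rw [inv1, abs_of_nonneg (by positivity), div_le_div_iff₀ (by positivity) hc]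
  have h1 : c ≤ max t c := le_max_right _ _
  have h2 : t ≤ max t c := le_max_left _ _
  nlinarith

lemma scut_inv1 {c : ℝ} (hc : 0 < c) (t : ℝ) : scut c t * inv1 c t * t = scut c t := by
  rcases le_or_gt t c with h | h
  · simp [scut_eq_zero h]
  · rw [inv1, max_eq_left h.le]; field_simp [show t ≠ 0 by linarith]

lemma continuous_ltwo {c : ℝ} (hc : 0 < c) : Continuous (ltwo c) :=
  (continuous_scut c).div (by fun_prop) fun t => (lt_max_of_lt_right hc).ne'

lemma ltwo_zero {c : ℝ} (hc : 0 < c) : ltwo c 0 = 0 := by simp [ltwo, scut_zero hc]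

lemma ltwo_scut {c : ℝ} (hc : 0 < c) (t : ℝ) : ltwo c t * scut c t = ramp c t := by
  rw [ltwo, div_mul_eq_mul_div, scut_mul_self]
  rcases le_or_gt t c with h | h
  · rw [ramp_eq_zero hc h, max_eq_right (by linarith : t - c ≤ 0)]; simp
  · rw [max_eq_left (by linarith : 0 ≤ t - c)]
    rcases le_or_gt (2 * c) t with h2 | h2
    · rw [ramp_eq_one hc h2, max_eq_left (by linarith)]
      exact div_self (by linarith)
    · rw [max_eq_right (by linarith : t - c ≤ c)]
      unfold ramp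
      have e : t / c - 1 = (t - c) / c := by field_simp
      rw [e, min_eq_right (by rw [div_le_one hc]; linarith), max_eq_right]
      exact div_nonneg (by linarith) hc.le

end funcs

section cfc_aux

lemma norm_cfcₙ_le_of_nonneg {a : A} (ha : 0 ≤ a) {f : ℝ → ℝ} {C : ℝ}
    (h : ∀ t, 0 ≤ t → |f t| ≤ C) : ‖cfcₙ f a‖ ≤ C :=
  norm_cfcₙ_le fun t ht => h t (quasispectrum_nonneg_of_nonneg a ha t ht)

lemma cmul {f g : ℝ → ℝ} (a : A) (hf : Continuous f) (hf0 : f 0 = 0)
    (hg : Continuous g) (hg0 : g 0 = 0) :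
    cfcₙ f a * cfcₙ g a = cfcₙ (fun t => f t * g t) a :=
  (cfcₙ_mul f g a hf.continuousOn hf0 hg.continuousOn hg0).symm

lemma cmul_id {f : ℝ → ℝ} {a : A} (ha : IsSelfAdjoint a) (hf : Continuous f) (hf0 : f 0 = 0) :
    cfcₙ f a * a = cfcₙ (fun t => f t * t) a := by
  conv_lhs => arg 2; rw [← cfcₙ_id' ℝ a ha]
  exact cmul a hf hf0 continuous_id rfl

lemma id_cmul {f : ℝ → ℝ} {a : A} (ha : IsSelfAdjoint a) (hf : Continuous f) (hf0 : f 0 = 0) :
    a * cfcₙ f a = cfcₙ (fun t => t * f t) a := by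
  conv_lhs => arg 1; rw [← cfcₙ_id' ℝ a ha]
  exact cmul a continuous_id rfl hf hf0

lemma star_cfcₙ (f : ℝ → ℝ) (a : A) : star (cfcₙ f a) = cfcₙ f a :=
  (cfcₙ_predicate f a : IsSelfAdjoint _).star_eq

lemma norm_sq_left (b : A) : ‖b‖ ^ 2 = ‖b * star b‖ := by
  rw [CStarRing.norm_self_mul_star, sq]

lemma norm_sq_right (b : A) : ‖b‖ ^ 2 = ‖star b * b‖ := by
  rw [CStarRing.norm_star_mul_self, sq]

lemma norm_sub_sq_le (a b : A) :
    ‖star a * a - star b * b‖ ≤ ‖a - b‖ * (‖a‖ + ‖b‖) := by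
  have e : star a * a - star b * b = star (a - b) * a + star b * (a - b) := by
    simp only [star_sub, mul_sub, sub_mul]; abel
  rw [e]
  calc ‖star (a - b) * a + star b * (a - b)‖
      ≤ ‖star (a - b) * a‖ + ‖star b * (a - b)‖ := norm_add_le _ _
    _ ≤ ‖star (a - b)‖ * ‖a‖ + ‖star b‖ * ‖a - b‖ :=
        add_le_add (norm_mul_le _ _) (norm_mul_le _ _)
    _ = ‖a - b‖ * (‖a‖ + ‖b‖) := by rw [norm_star, norm_star]; ring

/-- conjugation by `1 - g` is monotone -/
lemma conj_one_sub_le {P Q g : A} (hg : star g = g) (h : P ≤ Q) :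
    P - g * P - P * g + g * P * g ≤ Q - g * Q - Q * g + g * Q * g := by
  set e := CFC.sqrt (Q - P)
  have he : star e = e := (CFC.sqrt_nonneg (Q - P)).isSelfAdjoint.star_eq
  have hee : e * e = Q - P := CFC.sqrt_mul_sqrt_self (Q - P) (sub_nonneg.2 h)
  have key : star (e - e * g) * (e - e * g) =
      (Q - g * Q - Q * g + g * Q * g) - (P - g * P - P * g + g * P * g) := by
    have : star (e - e * g) * (e - e * g) =
        e * e - g * (e * e) - (e * e) * g + g * (e * e) * g := by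
      simp only [star_sub, star_mul, he, hg, mul_sub, sub_mul, mul_assoc]; abel
    rw [this, hee]
    simp only [mul_sub, sub_mul]; abel
  rw [← sub_nonneg, ← key]
  exact star_mul_self_nonneg _

/-- elements below `S` are almost fixed by `ramp c S` -/
lemma tail_le {S b : A} {c : ℝ} (hc : 0 < c) (hS : 0 ≤ S) (hb : b * star b ≤ S) :
    ‖b - cfcₙ (ramp c) S * b‖ ≤ Real.sqrt (2 * c) := by
  set G := cfcₙ (ramp c) S with hG
  have hGs : star G = G := star_cfcₙ _ _
  apply Real.le_sqrt_of_sq_le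
  have e : (b - G * b) * star (b - G * b) =
      b * star b - G * (b * star b) - b * star b * G + G * (b * star b) * G := by
    simp only [star_sub, star_mul, hGs, mul_sub, sub_mul, mul_assoc]; abel
  rw [norm_sq_left, e]
  have h0 : 0 ≤ b * star b - G * (b * star b) - b * star b * G + G * (b * star b) * G := by
    rw [← e]; exact mul_star_self_nonneg _
  refine (CStarAlgebra.norm_le_norm_of_nonneg_of_le h0 (conj_one_sub_le hGs hb)).trans ?_
  have sS := hS.isSelfAdjoint
  have e2 : S - G * S - S * G + G * S * G =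
      cfcₙ (fun t => t - ramp c t * t - t * ramp c t + ramp c t * t * ramp c t) S := by
    have c1 := continuous_ramp c
    have z1 := ramp_zero c
    rw [hG, cmul_id sS c1 z1, id_cmul sS c1 z1, cmul S (by fun_prop) (by simp [z1]) c1 z1]
    conv_lhs => arg 1; arg 1; arg 1; rw [← cfcₙ_id' ℝ S sS]
    rw [← cfcₙ_sub _ _ S, ← cfcₙ_sub _ _ S, ← cfcₙ_add _ _ S]
    
  rw [e2]
  refine norm_cfcₙ_le_of_nonneg hS fun t ht => ?_
  have r0 := ramp_nonneg c t
  have r1 := ramp_le_one c t
  rcases le_or_gt (2 * c) t with h | h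
  · rw [ramp_eq_one hc h, abs_le]; constructor <;> nlinarith
  · have e3 : t - ramp c t * t - t * ramp c t + ramp c t * t * ramp c t
        = t * ((1 - ramp c t) * (1 - ramp c t)) := by ring
    rw [e3, abs_of_nonneg (mul_nonneg ht (mul_self_nonneg _))]
    calc t * ((1 - ramp c t) * (1 - ramp c t)) ≤ t * 1 := by
          refine mul_le_mul_of_nonneg_left ?_ ht
          nlinarith
      _ ≤ 2 * c := by linarith

end cfc_aux

section near

/-- `a` is within `e` of the set of elements dominated by `F`. -/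
def Near (F : A) (e : ℝ) (a : A) : Prop :=
  ∀ δ : ℝ, 0 < δ → ∃ r : A, ‖star r * F * r - a‖ < e + δ

lemma Near.mono {F a : A} {e e' : ℝ} (h : Near F e a) (he : e ≤ e') : Near F e' a :=
  fun δ hδ => (h δ hδ).imp fun _ hr => hr.trans_le (by linarith)

lemma Near.dist {F a b : A} {e : ℝ} (h : Near F e a) :
    Near F (e + ‖a - b‖) b := fun δ hδ => by
  obtain ⟨r, hr⟩ := h δ hδ
  refine ⟨r, ?_⟩
  calc ‖star r * F * r - b‖ ≤ ‖star r * F * r - a‖ + ‖a - b‖ := norm_sub_le_norm_sub_add_norm_sub _ _ _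
    _ < e + δ + ‖a - b‖ := by linarith
    _ = e + ‖a - b‖ + δ := by ring

lemma norm_conj_le (u a : A) : ‖star u * a * u‖ ≤ ‖u‖ ^ 2 * ‖a‖ :=
  calc ‖star u * a * u‖ ≤ ‖star u‖ * ‖a‖ * ‖u‖ :=
        (norm_mul_le _ _).trans (mul_le_mul_of_nonneg_right (norm_mul_le _ _) (norm_nonneg _))
    _ = ‖u‖ ^ 2 * ‖a‖ := by rw [norm_star]; ring

lemma Near.conj {F a : A} {e : ℝ} (h : Near F e a) (u : A) :
    Near F (‖u‖ ^ 2 * e) (star u * a * u) := fun δ hδ => by
  obtain ⟨r, hr⟩ := h (δ / (‖u‖ ^ 2 + 1)) (by positivity)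
  refine ⟨r * u, ?_⟩
  have e1 : star (r * u) * F * (r * u) - star u * a * u
      = star u * (star r * F * r - a) * u := by
    simp only [star_mul, mul_sub, sub_mul, mul_assoc]
  rw [e1]
  refine lt_of_le_of_lt (norm_conj_le _ _) ?_
  have hu : 0 ≤ ‖u‖ ^ 2 := sq_nonneg _
  have h2 : ‖u‖ ^ 2 * (δ / (‖u‖ ^ 2 + 1)) < δ := by
    rw [mul_div_assoc', div_lt_iff₀ (by positivity)]; nlinarith
  calc ‖u‖ ^ 2 * ‖star r * F * r - a‖ ≤ ‖u‖ ^ 2 * (e + δ / (‖u‖ ^ 2 + 1)) :=
        mul_le_mul_of_nonneg_left hr.le hu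
    _ < ‖u‖ ^ 2 * e + δ := by rw [mul_add]; linarith

lemma norm_mul3_le {a b c : A} {η : ℝ} (h : ‖b‖ ≤ η) : ‖a * b * c‖ ≤ ‖a‖ * η * ‖c‖ :=
  (norm_mul_le _ _).trans (mul_le_mul_of_nonneg_right
    ((norm_mul_le _ _).trans (mul_le_mul_of_nonneg_left h (norm_nonneg _))) (norm_nonneg _))

lemma Near.add {F a b : A} {e e' : ℝ} (hF : ProperlyInfiniteElt F) (ha : Near F e a)
    (hb : Near F e' b) : Near F (e + e') (a + b) := fun δ hδ => by
  obtain ⟨r, hr⟩ := ha (δ / 4) (by linarith)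
  obtain ⟨s, hs⟩ := hb (δ / 4) (by linarith)
  set R := (‖r‖ + ‖s‖) ^ 2 + 1
  have hR : 0 < R := by positivity
  obtain ⟨d, d', h1, h2, h3, h4⟩ := hF (δ / (4 * R)) (by positivity)
  refine ⟨d * r + d' * s, ?_⟩
  have e1 : star (d * r + d' * s) * F * (d * r + d' * s) - (a + b) =
      (star r * (star d * F * d - F) * r + star r * (star d * F * d') * s +
        star s * (star d' * F * d) * r + star s * (star d' * F * d' - F) * s) +
      ((star r * F * r - a) + (star s * F * s - b)) := by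
    simp only [star_add, star_mul, add_mul, mul_add, mul_sub, sub_mul, mul_assoc]; abel
  rw [e1]
  refine lt_of_le_of_lt (norm_add_le _ _) ?_
  have hsum : ‖star r * (star d * F * d - F) * r + star r * (star d * F * d') * s +
        star s * (star d' * F * d) * r + star s * (star d' * F * d' - F) * s‖ ≤ δ / 4 := by
    refine (norm_add₄_le).trans ?_
    have k1 := norm_mul3_le (a := star r) (c := r) h1.le
    have k2 := norm_mul3_le (a := star r) (c := s) h3.le
    have k3 := norm_mul3_le (a := star s) (c := r) h4.le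
    have k4 := norm_mul3_le (a := star s) (c := s) h2.le
    rw [norm_star] at k1 k2 k3 k4
    have k5 : (δ / (4 * R)) * (‖r‖ + ‖s‖) ^ 2 ≤ δ / 4 := by
      rw [div_mul_eq_mul_div, div_le_div_iff₀ (by positivity) (by norm_num)]
      nlinarith
    nlinarith
  have := norm_add_le (star r * F * r - a) (star s * F * s - b)
  linarith

lemma Near.of_sq {F a : A} {e δ : ℝ} (ha : 0 ≤ a) (hδ : 0 < δ) (h : Near F e (a * a)) (he : 0 ≤ e) :
    Near F (e / δ + δ) a := by
  set k : ℝ → ℝ := fun t => t / (max t δ * Real.sqrt (max t δ))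
  have hm : ∀ t : ℝ, 0 < max t δ := fun t => lt_max_of_lt_right hδ
  have hk : Continuous k := continuous_id.div (by fun_prop) fun t => by
    have := hm t; have := Real.sqrt_pos.2 (hm t); positivity
  have hk0 : k 0 = 0 := by simp [k]
  have sa := ha.isSelfAdjoint
  have e1 : star (cfcₙ k a) * (a * a) * cfcₙ k a = cfcₙ (fun t => k t * t * (t * k t)) a := by
    rw [star_cfcₙ, ← mul_assoc, mul_assoc (cfcₙ k a * a), cmul_id sa hk hk0, id_cmul sa hk hk0]
    exact cmul a (by fun_prop) (by simp) (by fun_prop) (by simp)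
  have hsq : ∀ t, 0 ≤ t → k t * k t = t ^ 2 / (max t δ) ^ 3 := by
    intro t _
    simp only [k]
    rw [div_mul_div_comm]
    congr 1
    · ring
    · calc max t δ * Real.sqrt (max t δ) * (max t δ * Real.sqrt (max t δ))
          = max t δ ^ 2 * (Real.sqrt (max t δ) * Real.sqrt (max t δ)) := by ring
        _ = max t δ ^ 3 := by rw [Real.mul_self_sqrt (hm t).le]; ring
  have b1 : ‖cfcₙ k a‖ ^ 2 ≤ 1 / δ := by
    have : ‖cfcₙ k a‖ ≤ Real.sqrt (1 / δ) := norm_cfcₙ_le_of_nonneg ha fun t ht => by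
      refine Real.le_sqrt_of_sq_le ?_
      rw [sq_abs, sq, hsq t ht, div_le_div_iff₀ (by have := hm t; positivity) hδ]
      have h1 : δ ≤ max t δ := le_max_right _ _
      have h2 : t ≤ max t δ := le_max_left _ _
      nlinarith [mul_le_mul (mul_le_mul h2 h2 ht (hm t).le) h1 hδ.le (by positivity)]
    calc ‖cfcₙ k a‖ ^ 2 ≤ Real.sqrt (1 / δ) ^ 2 := pow_le_pow_left₀ (norm_nonneg _) this 2
      _ = 1 / δ := Real.sq_sqrt (by positivity)
  have b2 : ‖cfcₙ (fun t => k t * t * (t * k t)) a - a‖ ≤ δ := by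
    conv_lhs => arg 1; arg 2; rw [← cfcₙ_id' ℝ a sa]
    rw [← cfcₙ_sub _ _ a (by fun_prop) (by simp) (by fun_prop) (by simp)]
    refine norm_cfcₙ_le_of_nonneg ha fun t ht => ?_
    have e2 : k t * t * (t * k t) = t ^ 4 / (max t δ) ^ 3 := by
      rw [show k t * t * (t * k t) = t ^ 2 * (k t * k t) by ring, hsq t ht]; ring
    rw [e2]
    rcases le_or_gt δ t with h' | h'
    · rw [max_eq_left h']
      have : t ≠ 0 := by linarith
      have : t ^ 4 / t ^ 3 = t := by field_simp
      rw [this]; simp [hδ.le]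
    · rw [max_eq_right h'.le]
      have h0 : 0 ≤ t ^ 4 / δ ^ 3 := by positivity
      have h1 : t ^ 4 / δ ^ 3 ≤ δ := by
        rw [div_le_iff₀ (by positivity)]
        calc t ^ 4 ≤ δ ^ 4 := pow_le_pow_left₀ ht h'.le 4
          _ = δ * δ ^ 3 := by ring
      rw [abs_le]; constructor <;> linarith
  have hc := (h.conj (cfcₙ k a)).dist (b := a)
  refine hc.mono (add_le_add ?_ (by rw [e1]; exact b2))
  calc ‖cfcₙ k a‖ ^ 2 * e ≤ 1 / δ * e := mul_le_mul_of_nonneg_right b1 he
    _ = e / δ := by ring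

lemma Near.of_sq_exact {F a : A} (ha : 0 ≤ a) (h : Near F 0 (a * a)) : Near F 0 a := fun δ hδ => by
  obtain ⟨r, hr⟩ := (Near.of_sq ha (half_pos hδ) h le_rfl) (δ / 2) (half_pos hδ)
  exact ⟨r, hr.trans_le (by rw [zero_div]; linarith)⟩

lemma near_base {S : A} {c : ℝ} (hc : 0 < c) (u : A) :
    Near (posCut c S) 0 (star u * (cfcₙ (ramp c) S * cfcₙ (ramp c) S) * u) := fun δ hδ => by
  refine ⟨cfcₙ (ltwo c) S * u, ?_⟩
  have hl := continuous_ltwo hc
  have hl0 := ltwo_zero hc
  have e : cfcₙ (ltwo c) S * posCut c S * cfcₙ (ltwo c) S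
      = cfcₙ (ramp c) S * cfcₙ (ramp c) S := by
    unfold posCut
    rw [cmul S hl hl0 (by fun_prop) (by simp [hc.le]),
      cmul S (by fun_prop) (by simp [hl0]) hl hl0,
      cmul S (continuous_ramp c) (ramp_zero c) (continuous_ramp c) (ramp_zero c)]
    congr 1; funext t
    rw [← ltwo_scut hc t, ← scut_mul_self]; ring
  have e2 : star (cfcₙ (ltwo c) S * u) * posCut c S * (cfcₙ (ltwo c) S * u)
      = star u * (cfcₙ (ltwo c) S * posCut c S * cfcₙ (ltwo c) S) * u := by
    simp only [star_mul, star_cfcₙ, mul_assoc]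
  rw [e2, e, sub_self, norm_zero]; linarith

lemma near_gMg {S M : A} {c : ℝ} (hc : 0 < c) (hM : 0 ≤ M) :
    Near (posCut c S) 0 (cfcₙ (ramp c) S * M * cfcₙ (ramp c) S) := by
  set G := cfcₙ (ramp c) S
  have hG : star G = G := star_cfcₙ _ _
  refine Near.of_sq_exact ?_ ?_
  · have := star_left_conjugate_nonneg hM G
    rwa [hG] at this
  · have := near_base (S := S) hc (M * G)
    have e : G * M * G * (G * M * G) = star (M * G) * (G * G) * (M * G) := by
      simp only [star_mul, hG, hM.isSelfAdjoint.star_eq, mul_assoc]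
    rwa [e]

end near

end Vale.Agent.P133
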