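import Vale.Agent.P133.Iso

set_option linter.unusedSectionVars false

namespace Vale.Agent.P133

variable {A : Type*} [NonUnitalCStarAlgebra A] [PartialOrder A] [StarOrderedRing A]

/-- the fourth power clamp -/
noncomputable def clamp4 (β t : ℝ) : ℝ := (t / max t β) ^ 4

lemma continuous_clamp4 {β : ℝ} (hβ : 0 < β) : Continuous (clamp4 β) :=
  (continuous_id.div (by fun_prop) fun _ => (lt_max_of_lt_right hβ).ne').pow 4

lemma clamp4_zero (β : ℝ) : clamp4 β 0 = 0 := by simp [clamp4]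

lemma clamp4_mem {β : ℝ} (hβ : 0 < β) (t : ℝ) (ht : 0 ≤ t) : 0 ≤ clamp4 β t ∧ clamp4 β t ≤ 1 := by
  have hm : 0 < max t β := lt_max_of_lt_right hβ
  have h1 : t / max t β ≤ 1 := (div_le_one hm).2 (le_max_left _ _)
  exact ⟨by simp only [clamp4]; positivity, pow_le_one₀ (by positivity) h1⟩

lemma wside (hA : IsPurelyInfinite A) {x v v₁ D ψ z W₂ : A} {c η M : ℝ} (hc : 0 < c)
    (hc1 : 2 * c ≤ 1) (hM : 0 ≤ M) (hη : η ≤ Real.sqrt (2 * c)) (hv1 : ‖v‖ ≤ 1)
    (hDD : star D * D = x * x - v₁ * star v₁) (hDψ : star D * ψ * D = star D * D)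
    (hzψ : ‖star z * z - ψ‖ ≤ η) (nz : ‖z‖ ≤ 2) (hvW₂ : star v * W₂ = z)
    (bv₁ : ‖v₁‖ ≤ M) (bD : ‖D‖ ^ 2 ≤ M ^ 2) :
    Near (posCut c (v₁ * star v₁ + W₂ * star W₂))
      ((2 * M + 6 * M ^ 2) * Real.sqrt (2 * c)) (x * x) := by
  set S := v₁ * star v₁ + W₂ * star W₂ with hS
  have S0 : 0 ≤ S := add_nonneg (mul_star_self_nonneg _) (mul_star_self_nonneg _)
  set σ := Real.sqrt (2 * c)
  have hσ : 0 < σ := Real.sqrt_pos.2 (by linarith)
  have hσ1 : σ ≤ 1 := Real.sqrt_le_one.2 hc1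
  have hη0 : 0 ≤ η := (norm_nonneg _).trans hzψ
  set G := cfcₙ (ramp c) S with hG
  have hGs : star G = G := star_cfcₙ _ _
  have bG : ‖G‖ ≤ 1 := norm_cfcₙ_le_of_nonneg S0 fun t _ => by
    rw [abs_of_nonneg (ramp_nonneg c t)]; exact ramp_le_one c t
  set b := CFC.sqrt (v₁ * star v₁) with hb
  have bs : star b = b := (CFC.sqrt_nonneg _).isSelfAdjoint.star_eq
  have bb : b * b = v₁ * star v₁ := CFC.sqrt_mul_sqrt_self _ (mul_star_self_nonneg _)
  have bbS : b * star b ≤ S := by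
    rw [bs, bb, hS]; exact le_add_of_nonneg_right (mul_star_self_nonneg _)
  have bn : ‖b‖ ≤ M := by
    have : ‖b‖ ^ 2 ≤ M ^ 2 := by
      rw [norm_sq_left, bs, bb, ← norm_sq_left]
      exact pow_le_pow_left₀ (norm_nonneg _) bv₁ 2
    nlinarith [norm_nonneg b]
  have bGb : ‖G * b‖ ≤ M :=
    (norm_mul_le _ _).trans ((mul_le_mul bG bn (norm_nonneg _) zero_le_one).trans_eq (one_mul M))
  have t1 : Near (posCut c S) (σ * (M + M)) (v₁ * star v₁) := by
    have e : star b * (G * G) * b = star (G * b) * (G * b) := by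
      simp only [star_mul, hGs, mul_assoc]
    have h1 := (near_base (S := S) hc b).dist (b := star b * b)
    rw [← hG, e, bs, bb] at h1
    refine h1.mono ?_
    rw [zero_add, ← bb]
    conv_lhs => arg 1; arg 2; arg 1; rw [← bs]
    refine (norm_sub_sq_le _ _).trans (mul_le_mul ?_ (add_le_add bGb bn) (by positivity) hσ.le)
    rw [norm_sub_rev]; exact tail_le hc S0 bbS
  set z' := star v * (G * W₂) with hz'
  have h0 : Near (posCut c S) 0 (star z' * z') := by
    have h := (near_gMg (S := S) hc (mul_star_self_nonneg v)).conj W₂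
    rw [mul_zero, ← hG] at h
    convert h using 1
    simp only [hz', star_mul, hGs, star_star, mul_assoc]
  have dz : ‖z - z'‖ ≤ σ := by
    rw [← hvW₂, hz', ← mul_sub]
    refine (norm_mul_le _ _).trans ?_
    rw [norm_star]
    refine (mul_le_mul hv1 (tail_le hc S0 ?_) (norm_nonneg _) zero_le_one).trans_eq (one_mul σ)
    rw [hS]; exact le_add_of_nonneg_left (mul_star_self_nonneg _)
  have bz' : ‖z'‖ ≤ 3 := by
    have := norm_le_norm_add_norm_sub' z' z
    rw [norm_sub_rev] at this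
    linarith
  have hψn : Near (posCut c S) (5 * σ + η) ψ := by
    refine (h0.dist (b := ψ)).mono ?_
    rw [zero_add]
    refine (norm_sub_le_norm_sub_add_norm_sub _ (star z * z) _).trans (add_le_add ?_ ?_)
    · rw [norm_sub_rev]
      refine (norm_sub_sq_le _ _).trans ((mul_le_mul dz (add_le_add nz bz') (by positivity)
        hσ.le).trans_eq (by ring))
    · exact hzψ
  have t2 := hψn.conj D
  rw [hDψ, hDD] at t2
  have t3 := (t1.add (hA _ (cfcₙ_nonneg fun t _ => le_max_right _ _)) t2)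
  rw [add_sub_cancel] at t3
  refine t3.mono ?_
  have := mul_le_mul bD (by linarith : 5 * σ + η ≤ 6 * σ) (by positivity) (sq_nonneg M)
  nlinarith

lemma exists_R {z₁ z₂ : A} {β η : ℝ} (hβ : 0 < β)
    (nz₁ : ‖z₁‖ ≤ 2) (e22 : ‖star z₂ * z₂ - star z₁ * z₁‖ ≤ 2 * η)
    (h12 : ‖star z₁ * z₂‖ ≤ η) :
    ∃ T : A, ‖star (z₂ * T) * (z₂ * T) - (cfcₙ (clamp4 β) (z₁ * star z₁)
        + cfcₙ (clamp4 β) (z₁ * star z₁)
        - cfcₙ (clamp4 β) (z₁ * star z₁) * cfcₙ (clamp4 β) (z₁ * star z₁))‖ ≤ 32 * η / β ^ 2 ∧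
      ‖cfcₙ (clamp4 β) (z₁ * star z₁) * (z₂ * T)‖ ≤ 8 * η / β ^ 2 := by
  have hη0 : 0 ≤ η := (norm_nonneg _).trans h12
  set Z := z₁ * star z₁ with hZ
  have Z0 : 0 ≤ Z := mul_star_self_nonneg _
  have sZ := Z0.isSelfAdjoint
  set f := clamp4 β with hfdef
  have hmβ : ∀ t : ℝ, 0 < max t β := fun t => lt_max_of_lt_right hβ
  have hf : Continuous f := continuous_clamp4 hβ
  have hf0 : f 0 = 0 := clamp4_zero β
  have hfb := clamp4_mem hβ
  set ρ := cfcₙ f Z with hρ
  set h : ℝ → ℝ := fun t => Real.sqrt (2 - f t) * t / (max t β * max t β)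
  have hh : Continuous h := ((continuous_const.sub hf).sqrt.mul continuous_id).div (by fun_prop)
    fun t => by have := hmβ t; positivity
  have hh0 : h 0 = 0 := by simp [h]
  set H := cfcₙ h Z with hH
  have hHs : star H = H := star_cfcₙ _ _
  have bH : ‖H‖ ≤ 2 / β := norm_cfcₙ_le_of_nonneg Z0 fun t ht => by
    have := hmβ t
    rw [abs_of_nonneg (by positivity)]
    have s2 : Real.sqrt (2 - f t) ≤ 2 := by
      rw [Real.sqrt_le_iff]; exact ⟨by norm_num, by linarith [(hfb t ht).1]⟩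
    calc Real.sqrt (2 - f t) * t / (max t β * max t β)
        ≤ 2 * max t β / (max t β * max t β) := by
          gcongr; exact le_max_left _ _
      _ = 2 / max t β := by field_simp
      _ ≤ 2 / β := div_le_div_of_nonneg_left (by norm_num) hβ (le_max_right _ _)
  have bzH : ‖star z₁ * H‖ ≤ 2 * (2 / β) :=
    (norm_mul_le _ _).trans (mul_le_mul ((norm_star z₁).le.trans nz₁) bH (norm_nonneg _)
      (by norm_num))
  set R := z₂ * (star z₁ * H) with hR
  set f₂ := cfcₙ (fun t => f t + f t - f t * f t) Z with hf₂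
  have hf₂ρ : f₂ = ρ + ρ - ρ * ρ := by
    rw [hρ, cmul Z hf hf0 hf hf0, ← cfcₙ_add _ _ Z (by fun_prop) hf0 (by fun_prop) hf0,
      ← cfcₙ_sub _ _ Z (by fun_prop) (by simp [hf0]) (by fun_prop) (by simp [hf0])]
  have eRR : ‖star R * R - f₂‖ ≤ 32 * η / β ^ 2 := by
    have e1 : f₂ = H * (z₁ * (star z₁ * z₁) * star z₁) * H := by
      have e1' : H * (z₁ * (star z₁ * z₁) * star z₁) * H = H * Z * (Z * H) := by
        simp only [hZ, mul_assoc]
      rw [e1', hH, cmul_id sZ hh hh0, id_cmul sZ hh hh0,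
        cmul Z (by fun_prop) (by simp) (by fun_prop) (by simp), hf₂]
      refine cfcₙ_congr fun t ht => ?_
      have ht0 := quasispectrum_nonneg_of_nonneg Z Z0 t ht
      have hs := Real.mul_self_sqrt (show 0 ≤ 2 - f t by linarith [(hfb t ht0).2])
      have := hmβ t
      have e : h t * t * (t * h t) = (Real.sqrt (2 - f t) * Real.sqrt (2 - f t)) * f t := by
        simp only [hfdef, clamp4, h]; field_simp
      rw [e, hs]; ring
    have e2 : star R * R - f₂
        = star (star z₁ * H) * (star z₂ * z₂ - star z₁ * z₁) * (star z₁ * H) := by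
      rw [e1, hR]
      simp only [star_mul, star_star, hHs, mul_sub, sub_mul, mul_assoc]
    rw [e2]
    refine (norm_conj_le _ _).trans ((mul_le_mul (pow_le_pow_left₀ (norm_nonneg _) bzH 2) e22
      (norm_nonneg _) (by positivity)).trans_eq ?_)
    ring
  have eρz : ‖ρ * z₂‖ ≤ 1 / β * (2 * η) := by
    set j : ℝ → ℝ := fun t => t ^ 3 / (max t β) ^ 4
    have hj : Continuous j := (continuous_id.pow 3).div (by fun_prop) fun t => by
      have := hmβ t; positivity
    have hj0 : j 0 = 0 := by simp [j]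
    have e : ρ = cfcₙ j Z * Z := by
      rw [cmul_id sZ hj hj0, hρ]; congr 1; funext t
      simp only [hfdef, clamp4, j]; have := hmβ t; field_simp
    have bj : ‖cfcₙ j Z‖ ≤ 1 / β := norm_cfcₙ_le_of_nonneg Z0 fun t ht => by
      have := hmβ t
      rw [abs_of_nonneg (by positivity)]
      calc t ^ 3 / max t β ^ 4 ≤ max t β ^ 3 / max t β ^ 4 := by
            gcongr; exact le_max_left _ _
        _ = 1 / max t β := by field_simp
        _ ≤ 1 / β := div_le_div_of_nonneg_left zero_le_one hβ (le_max_right _ _)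
    rw [e, hZ, mul_assoc, mul_assoc]
    refine (norm_mul_le _ _).trans (mul_le_mul bj ?_ (norm_nonneg _) (by positivity))
    exact (norm_mul_le _ _).trans (mul_le_mul nz₁ h12 (norm_nonneg _) (by norm_num))
  refine ⟨star z₁ * H, by rw [← hf₂ρ]; exact eRR, ?_⟩
  rw [← mul_assoc]
  exact ((norm_mul_le _ _).trans (mul_le_mul eρz bzH (norm_nonneg _) (by positivity))).trans_eq
    (by ring)

lemma tside (hA : IsPurelyInfinite A) {v p z₁ z₂ : A} {c β η : ℝ} (hp : IsStarProjection p)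
    (hv : star v * v = p) (hc : 0 < c) (hc1 : 2 * c ≤ 1) (hβ : 0 < β)
    (hη3 : 80 * η / β ^ 2 ≤ Real.sqrt (2 * c))
    (nz₁ : ‖z₁‖ ≤ 2) (nz₂ : ‖z₂‖ ≤ 2) (e22 : ‖star z₂ * z₂ - star z₁ * z₁‖ ≤ 2 * η)
    (h12 : ‖star z₁ * z₂‖ ≤ η) (hpz : p * z₂ = z₂) :
    Near (posCut c ((v - v * cfcₙ (clamp4 β) (z₁ * star z₁)) *
        star (v - v * cfcₙ (clamp4 β) (z₁ * star z₁))))
      (34 * Real.sqrt (Real.sqrt (2 * c))) p := by
  set σ := Real.sqrt (2 * c)
  have hσ : 0 < σ := Real.sqrt_pos.2 (by linarith)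
  have hσ1 : σ ≤ 1 := Real.sqrt_le_one.2 hc1
  have hη0 : 0 ≤ η := (norm_nonneg _).trans h12
  have hps := hp.isSelfAdjoint.star_eq
  have hpp : p * p = p := hp.isIdempotentElem
  have hv1 : ‖v‖ ≤ 1 := norm_star_mul_le_one hp hv
  set Z := z₁ * star z₁ with hZ
  have Z0 : 0 ≤ Z := mul_star_self_nonneg _
  have sZ := Z0.isSelfAdjoint
  set f := clamp4 β with hfdef
  have hmβ : ∀ t : ℝ, 0 < max t β := fun t => lt_max_of_lt_right hβ
  have hf : Continuous f := continuous_clamp4 hβ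
  have hf0 : f 0 = 0 := clamp4_zero β
  have hfb := clamp4_mem hβ
  set ρ := cfcₙ f Z with hρ
  have hρs : star ρ = ρ := star_cfcₙ _ _
  have bρ : ‖ρ‖ ≤ 1 := norm_cfcₙ_le_of_nonneg Z0 fun t ht => by
    rw [abs_of_nonneg (hfb t ht).1]; exact (hfb t ht).2
  set w := v - v * ρ with hw
  have bw : ‖w‖ ≤ 2 := by
    refine (norm_sub_le _ _).trans ?_
    have : ‖v * ρ‖ ≤ 1 := (norm_mul_le _ _).trans (mul_le_one₀ hv1 (norm_nonneg _) bρ)
    linarith
  set S' := w * star w with hS'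
  have S'0 : 0 ≤ S' := mul_star_self_nonneg _
  set G := cfcₙ (ramp c) S' with hG
  have hGs : star G = G := star_cfcₙ _ _
  have bG : ‖G‖ ≤ 1 := norm_cfcₙ_le_of_nonneg S'0 fun t _ => by
    rw [abs_of_nonneg (ramp_nonneg c t)]; exact ramp_le_one c t
  have hPI : ProperlyInfiniteElt (posCut c S') := hA _ (cfcₙ_nonneg fun t _ => le_max_right _ _)
  have hww : Near (posCut c S') (4 * σ) (star w * w) := by
    have e : star w * (G * G) * w = star (G * w) * (G * w) := by
      simp only [star_mul, hGs, mul_assoc]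
    have h1 := (near_base (S := S') hc w).dist (b := star w * w)
    rw [← hG, e] at h1
    refine h1.mono ?_
    rw [zero_add]
    have bGw : ‖G * w‖ ≤ 2 :=
      (norm_mul_le _ _).trans ((mul_le_mul bG bw (norm_nonneg _) zero_le_one).trans_eq (one_mul 2))
    refine (norm_sub_sq_le _ _).trans ((mul_le_mul ?_ (add_le_add bGw bw) (by positivity)
      hσ.le).trans_eq (by ring))
    rw [norm_sub_rev]; exact tail_le hc S'0 le_rfl
  obtain ⟨T, eRR, eρR⟩ := exists_R hβ nz₁ e22 h12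
  set R := z₂ * T with hR
  set f₂ := ρ + ρ - ρ * ρ with hf₂ρ
  have hpR : p * R = R := by rw [hR, ← mul_assoc, hpz]
  have bf₂ : ‖f₂‖ ≤ 1 := by
    rw [hf₂ρ, hρ, cmul Z hf hf0 hf hf0, ← cfcₙ_add _ _ Z (by fun_prop) hf0 (by fun_prop) hf0,
      ← cfcₙ_sub _ _ Z (by fun_prop) (by simp [hf0]) (by fun_prop) (by simp [hf0])]
    refine norm_cfcₙ_le_of_nonneg Z0 fun t ht => ?_
    obtain ⟨r0, r1⟩ := hfb t ht
    rw [abs_le]; constructor <;> nlinarith
  have bR : ‖R‖ ≤ 2 := by
    have : ‖R‖ ^ 2 ≤ 3 := by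
      rw [norm_sq_right]
      have := norm_le_norm_add_norm_sub' (star R * R) f₂
      have : 32 * η / β ^ 2 ≤ 80 * η / β ^ 2 := by gcongr; norm_num
      linarith
    nlinarith [norm_nonneg R]
  have hfR : Near (posCut c S') (17 * σ) f₂ := by
    have h1 := (hww.conj R).dist (b := f₂)
    refine h1.mono ?_
    have e1 : star R * (star w * w) * R = star (w * R) * (w * R) := by
      simp only [star_mul, mul_assoc]
    have e2 : star R * R = star (v * R) * (v * R) := by
      calc star R * R = star R * ((star v * v) * R) := by rw [hv, hpR]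
        _ = star (v * R) * (v * R) := by simp only [star_mul, mul_assoc]
    have e3 : ‖w * R - v * R‖ ≤ 8 * η / β ^ 2 := by
      have : w * R - v * R = -(v * (ρ * R)) := by
        rw [hw, sub_mul, mul_assoc]; abel
      rw [this, norm_neg]
      exact (norm_mul_le _ _).trans ((mul_le_mul hv1 eρR (norm_nonneg _) zero_le_one).trans_eq
        (one_mul _))
    have nw : ‖w * R‖ ≤ 4 :=
      (norm_mul_le _ _).trans ((mul_le_mul bw bR (norm_nonneg _) (by norm_num)).trans_eq (by norm_num))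
    have nv : ‖v * R‖ ≤ 2 :=
      (norm_mul_le _ _).trans ((mul_le_mul hv1 bR (norm_nonneg _) zero_le_one).trans_eq (by norm_num))
    have e4 : ‖star R * (star w * w) * R - star R * R‖ ≤ 48 * η / β ^ 2 := by
      rw [e1, e2]
      refine (norm_sub_sq_le _ _).trans ((mul_le_mul e3 (add_le_add nw nv) (by positivity)
        (by positivity)).trans_eq ?_)
      ring
    have e5 := norm_sub_le_norm_sub_add_norm_sub (star R * (star w * w) * R) (star R * R) f₂
    have e6 : 48 * η / β ^ 2 + 32 * η / β ^ 2 = 80 * η / β ^ 2 := by ring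
    have e7 : ‖R‖ ^ 2 * (4 * σ) ≤ 4 * (4 * σ) :=
      mul_le_mul_of_nonneg_right (by nlinarith [norm_nonneg R]) (by positivity)
    linarith
  set P₁ := p - ρ * p with hP₁
  have bP₁ : ‖P₁‖ ^ 2 ≤ 4 := by
    have hp1 : ‖p‖ ≤ 1 := IsStarProjection.norm_le p hp
    have : ‖P₁‖ ≤ 2 := by
      refine (norm_sub_le _ _).trans ?_
      have : ‖ρ * p‖ ≤ 1 := (norm_mul_le _ _).trans (mul_le_one₀ bρ (norm_nonneg _) hp1)
      linarith
    nlinarith [norm_nonneg P₁]
  have hM1 : Near (posCut c S') (16 * σ / Real.sqrt σ + Real.sqrt σ) (star P₁ * P₁) := by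
    refine Near.of_sq (star_mul_self_nonneg _) (Real.sqrt_pos.2 hσ) ?_ (by positivity)
    have e : star P₁ * P₁ * (star P₁ * P₁) = star P₁ * (star w * w) * P₁ := by
      have : P₁ * star P₁ = star w * w := by
        rw [hw, hP₁]
        simp only [star_sub, star_mul, hρs, hps, sub_mul, mul_sub, mul_assoc]
        simp only [← mul_assoc (star v) v, hv]
        simp only [mul_assoc, hpp, ← mul_assoc p p]
      simp only [← this, mul_assoc]
    rw [e]
    exact (hww.conj P₁).mono (by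
      have := mul_le_mul_of_nonneg_right bP₁ (show (0:ℝ) ≤ 4 * σ by positivity)
      linarith)
  have hpf := hfR.conj p
  have hsum := hM1.add hPI hpf
  have e : star P₁ * P₁ + star p * f₂ * p = p := by
    rw [hP₁, hf₂ρ]
    simp only [star_sub, star_mul, hρs, hps, sub_mul, mul_sub, mul_add, add_mul, mul_assoc, hpp]
    abel
  rw [e] at hsum
  refine hsum.mono ?_
  have hp2 : ‖p‖ ^ 2 * (17 * σ) ≤ 17 * σ :=
    mul_le_of_le_one_left (by positivity)
      (pow_le_one₀ (norm_nonneg _) (IsStarProjection.norm_le p hp))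
  have h1 : σ / Real.sqrt σ = Real.sqrt σ := Real.div_sqrt
  have h2 : σ ≤ Real.sqrt σ := Real.le_sqrt_of_sq_le (by nlinarith)
  rw [mul_div_assoc, h1]
  linarith


/-- low part of `x` relative to `v`, and the positive remainder -/
lemma exists_head {x v p : A} (hx : 0 ≤ x) (hv1 : ‖v‖ ≤ 1) (hvp : v * p = v) (hps : star p = p)
    {a₁ : ℝ} (ha₁ : 0 < a₁) :
    ∃ v₁ D B : A, v₁ * star v₁ = x * B ∧ ‖star v * v₁‖ ≤ Real.sqrt a₁ ∧
      star D * D = x * x - v₁ * star v₁ ∧
      star D * cfcₙ (ramp (a₁ / 4)) (star v * (x * x) * v) * D = star D * D ∧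
      ‖v₁‖ ≤ ‖x‖ ∧ ‖D‖ ^ 2 ≤ ‖x‖ ^ 2 := by
  set M := ‖x‖
  have hM : 0 ≤ M := norm_nonneg _
  have sx : star x = x := hx.isSelfAdjoint.star_eq
  have ha2 : 0 < a₁ / 2 := by positivity
  have ha : 0 < a₁ / 4 := by positivity
  set n := star v * (x * x) * v with hn
  have hn0 : 0 ≤ n := star_left_conjugate_nonneg hx.isSelfAdjoint.mul_self_nonneg v
  have sn := hn0.isSelfAdjoint
  have hpn : p * n = n := by
    have : p * star v = star v := by rw [← hps, ← star_mul, hvp]
    rw [hn, ← mul_assoc, ← mul_assoc, this]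
  set X := x * x * v with hX
  have hXs : star X = star v * (x * x) := by rw [hX, star_mul, star_mul, sx]
  have hXn : star v * X = n := by rw [hn, hX]; simp only [mul_assoc]
  set k := kf (a₁ / 2)
  have hk : Continuous k := continuous_kf ha2
  have hk0 : k 0 = 0 := kf_zero _
  set θ := ramp (a₁ / 2)
  have hθ : Continuous θ := continuous_ramp _
  have hθ0 : θ 0 = 0 := ramp_zero _
  set v₁ := x - X * cfcₙ k n * (star v * x) with hv₁
  have hvv₁ : star v * v₁ = star v * x - cfcₙ θ n * (star v * x) := by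
    rw [hv₁, mul_sub, ← mul_assoc (star v), ← mul_assoc (star v) X, hXn, id_cmul sn hk hk0]
    congr 3
    funext t; exact id_mul_kf ha2 t
  have hvx : star v * x * star (star v * x) = n := by
    rw [hn, star_mul, star_star, sx]; simp only [mul_assoc]
  have bvv₁ : ‖star v * v₁‖ ≤ Real.sqrt a₁ := by
    apply Real.le_sqrt_of_sq_le
    rw [norm_sq_left, hvv₁]
    have e : (star v * x - cfcₙ θ n * (star v * x)) * star (star v * x - cfcₙ θ n * (star v * x))
        = n - cfcₙ θ n * n - n * cfcₙ θ n + cfcₙ θ n * n * cfcₙ θ n := by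
      rw [← hvx]
      simp only [star_sub, star_mul, star_cfcₙ, star_star, mul_sub, sub_mul, mul_assoc]; abel
    rw [e, cmul_id sn hθ hθ0, id_cmul sn hθ hθ0, cmul n (by fun_prop) (by simp [hθ0]) hθ hθ0]
    conv_lhs => arg 1; arg 1; arg 1; arg 1; rw [← cfcₙ_id' ℝ n sn]
    rw [← cfcₙ_sub _ _ n (by fun_prop) (by simp) (by fun_prop) (by simp [hθ0]),
      ← cfcₙ_sub _ _ n (by fun_prop) (by simp [hθ0]) (by fun_prop) (by simp [hθ0]),
      ← cfcₙ_add _ _ n (by fun_prop) (by simp [hθ0]) (by fun_prop) (by simp [hθ0])]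
    refine norm_cfcₙ_le_of_nonneg hn0 fun t ht => ?_
    have r0 : 0 ≤ θ t := ramp_nonneg _ t
    have r1 : θ t ≤ 1 := ramp_le_one _ t
    rcases le_or_gt a₁ t with h | h
    · rw [show θ t = 1 from ramp_eq_one ha2 (by linarith)]; simp [ha₁.le]
    · have e3 : t - θ t * t - t * θ t + θ t * t * θ t = t * ((1 - θ t) * (1 - θ t)) := by ring
      rw [e3, abs_of_nonneg (mul_nonneg ht (mul_self_nonneg _))]
      calc t * ((1 - θ t) * (1 - θ t)) ≤ t * 1 := by
            refine mul_le_mul_of_nonneg_left ?_ ht; nlinarith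
        _ ≤ a₁ := by linarith
  set sk : ℝ → ℝ := fun t => Real.sqrt (k t + k t - k t * t * k t)
  have hsk : Continuous sk := by fun_prop
  have hsk0 : sk 0 = 0 := by simp [sk, hk0]
  have hκnn : ∀ t, 0 ≤ t → 0 ≤ k t + k t - k t * t * k t := fun t ht => by
    have h1 : 0 ≤ k t := div_nonneg (ramp_nonneg _ _) (le_max_of_le_right ha2.le)
    have h2 : t * k t ≤ 1 := by rw [id_mul_kf ha2]; exact ramp_le_one _ _
    nlinarith
  set D := cfcₙ sk n * star X with hD
  have hDD : star D * D = x * x - v₁ * star v₁ := by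
    have e1 : star D * D = X * (cfcₙ sk n * cfcₙ sk n) * star X := by
      rw [hD, star_mul, star_star, star_cfcₙ]; simp only [mul_assoc]
    have e2 : cfcₙ sk n * cfcₙ sk n = cfcₙ k n + cfcₙ k n - cfcₙ k n * n * cfcₙ k n := by
      rw [cmul_id sn hk hk0, cmul n (by fun_prop) (by simp) hk hk0, cmul n hsk hsk0 hsk hsk0,
        ← cfcₙ_add _ _ n (by fun_prop) hk0 (by fun_prop) hk0,
        ← cfcₙ_sub _ _ n (by fun_prop) (by simp [hk0]) (by fun_prop) (by simp)]
      exact cfcₙ_congr fun t ht =>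
        Real.mul_self_sqrt (hκnn t (quasispectrum_nonneg_of_nonneg n hn0 t ht))
    rw [e1, e2, hv₁, hXs]
    simp only [hn, hX, star_sub, star_mul, star_cfcₙ, star_star, sx, mul_sub, sub_mul, mul_add,
      add_mul, mul_assoc]
    abel
  have hv1v1 : v₁ * star v₁ ≤ x * x := by
    rw [← sub_nonneg, ← hDD]; exact star_mul_self_nonneg _
  have bv₁ : ‖v₁‖ ≤ M := by
    have : ‖v₁‖ ^ 2 ≤ M ^ 2 := by
      rw [norm_sq_left]
      refine (CStarAlgebra.norm_le_norm_of_nonneg_of_le (mul_star_self_nonneg _) hv1v1).trans ?_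
      exact (norm_mul_le _ _).trans_eq (sq M).symm
    nlinarith [norm_nonneg v₁]
  have bD : ‖D‖ ^ 2 ≤ M ^ 2 := by
    rw [norm_sq_right]
    refine (CStarAlgebra.norm_le_norm_of_nonneg_of_le (star_mul_self_nonneg _)
      (b := x * x) ?_).trans ((norm_mul_le _ _).trans_eq (sq M).symm)
    rw [hDD, sub_le_self_iff]; exact mul_star_self_nonneg _
  refine ⟨v₁, D, star v₁ - x * v * cfcₙ k n * (star v * x) * star v₁, ?_, bvv₁, hDD, ?_, bv₁, bD⟩
  · rw [mul_sub]
    conv_lhs => arg 1; rw [hv₁]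
    rw [sub_mul, hX]; simp only [mul_assoc]
  · have : cfcₙ (ramp (a₁ / 4)) n * cfcₙ sk n = cfcₙ sk n := by
      rw [cmul n (continuous_ramp _) (ramp_zero _) hsk hsk0]
      congr 1; funext t
      rcases le_or_gt (a₁ / 2) t with h | h
      · rw [ramp_eq_one ha (by linarith), one_mul]
      · have : k t = 0 := by simp [k, kf, ramp_eq_zero ha2 h.le]
        simp [sk, this]
    rw [mul_assoc, hD, ← mul_assoc (cfcₙ (ramp (a₁ / 4)) n), this]

/-- the two halves of the upper part of `n`, and a lift of the first -/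
lemma exists_halves (hA : IsPurelyInfinite A) {x v p : A} (hx : 0 ≤ x) (hv1 : ‖v‖ ≤ 1)
    (hvp : v * p = v) (hps : star p = p) {a η : ℝ} (ha : 0 < a) (hη : 0 < η) (hη1 : η ≤ 1 / 2) :
    ∃ z₁ z₂ L : A, ‖z₁‖ ≤ 2 ∧ ‖z₂‖ ≤ 2 ∧
      ‖star z₁ * z₁ - cfcₙ (ramp a) (star v * (x * x) * v)‖ ≤ η ∧
      ‖star z₂ * z₂ - star z₁ * z₁‖ ≤ 2 * η ∧ ‖star z₁ * z₂‖ ≤ η ∧ p * z₂ = z₂ ∧
      star v * (x * L) = z₁ ∧ ‖x * L‖ ≤ ‖x‖ ^ 2 * (1 / a) * 2 := by
  set M := ‖x‖
  set n := star v * (x * x) * v with hn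
  have hn0 : 0 ≤ n := star_left_conjugate_nonneg hx.isSelfAdjoint.mul_self_nonneg v
  have sn := hn0.isSelfAdjoint
  have hpn : p * n = n := by
    have : p * star v = star v := by rw [← hps, ← star_mul, hvp]
    rw [hn, ← mul_assoc, ← mul_assoc, this]
  set X := x * x * v with hX
  have hXn : star v * X = n := by rw [hn, hX]; simp only [mul_assoc]
  set ψf := ramp a
  have hψ : Continuous ψf := continuous_ramp _
  have hψ0 : ψf 0 = 0 := ramp_zero _
  set ψ := cfcₙ ψf n with hψdef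
  have ψ0 : 0 ≤ ψ := cfcₙ_nonneg fun t _ => ramp_nonneg _ t
  have ψ1 : ‖ψ‖ ≤ 1 := norm_cfcₙ_le_of_nonneg hn0 fun t _ => by
    rw [abs_of_nonneg (ramp_nonneg a t)]; exact ramp_le_one a t
  obtain ⟨d₁, d₂, h11, h22, h12, h21⟩ := hA ψ ψ0 η hη
  set sq : ℝ → ℝ := fun t => Real.sqrt (ψf t)
  have hsq : Continuous sq := by fun_prop
  have hsq0 : sq 0 = 0 := by simp [sq, hψ0]
  set q := cfcₙ sq n with hq
  have hqs : star q = q := star_cfcₙ _ _
  have hqq : q * q = ψ := by
    rw [hq, cmul n hsq hsq0 hsq hsq0]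
    congr 1; funext t; exact Real.mul_self_sqrt (ramp_nonneg _ _)
  set z₁ := q * d₁ with hz₁
  set z₂ := q * d₂ with hz₂
  have zz : ∀ d d' : A, star (q * d) * (q * d') = star d * ψ * d' := fun d d' => by
    rw [← hqq, star_mul, hqs]; simp only [mul_assoc]
  have hpq : p * q = q := by
    set j : ℝ → ℝ := fun t => sq t / max t a
    have hj : Continuous j := hsq.div (by fun_prop) fun t => (lt_max_of_lt_right ha).ne'
    have : q = n * cfcₙ j n := by
      rw [id_cmul sn hj (by simp [j, hsq0]), hq]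
      congr 1; funext t
      simp only [j]
      rcases le_or_gt t a with h | h
      · simp [sq, ψf, ramp_eq_zero ha h]
      · rw [max_eq_left h.le]; field_simp [show t ≠ 0 by linarith]
    rw [this, ← mul_assoc, hpn]
  have nz : ∀ d, ‖star d * ψ * d - ψ‖ < η → ‖q * d‖ ≤ 2 := fun d hd => by
    have : ‖q * d‖ ^ 2 ≤ 2 := by
      rw [norm_sq_right, zz]
      have := norm_le_norm_add_norm_sub' (star d * ψ * d) ψ
      linarith
    nlinarith [norm_nonneg (q * d)]
  have nz₁ : ‖z₁‖ ≤ 2 := nz d₁ h11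
  have nz₂ : ‖z₂‖ ≤ 2 := nz d₂ h22
  set j2 := inv1 a
  set W₂ := X * cfcₙ j2 n * z₁ with hW₂
  have hvW₂ : star v * W₂ = z₁ := by
    have e : star v * W₂ = star v * X * cfcₙ j2 n * q * d₁ := by
      rw [hW₂, hz₁]; simp only [mul_assoc]
    have hj2 : Continuous j2 := continuous_inv1 ha
    rw [e, hXn, hz₁, id_cmul sn hj2 (inv1_zero a), hq,
      cmul n (by fun_prop) (by simp) hsq hsq0]
    congr 2; funext t
    rcases le_or_gt t a with h | h
    · simp [sq, ψf, ramp_eq_zero ha h]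
    · simp only [j2, inv1]; rw [max_eq_left h.le]; field_simp [show t ≠ 0 by linarith]
  have bW₂ : ‖W₂‖ ≤ M ^ 2 * (1 / a) * 2 := by
    have hXb : ‖X‖ ≤ M ^ 2 := by
      refine (norm_mul_le _ _).trans ((mul_le_mul (norm_mul_le _ _) hv1 (norm_nonneg _)
        (by positivity)).trans_eq ?_)
      ring
    have hjb : ‖cfcₙ j2 n‖ ≤ 1 / a := norm_cfcₙ_le_of_nonneg hn0 fun t ht => abs_inv1_le ha ht
    refine (norm_mul_le _ _).trans (mul_le_mul ((norm_mul_le _ _).trans ?_) nz₁ (norm_nonneg _)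
      (by positivity))
    exact mul_le_mul hXb hjb (norm_nonneg _) (by positivity)
  have e22 : ‖star z₂ * z₂ - star z₁ * z₁‖ ≤ 2 * η := by
    rw [hz₁, hz₂, zz, zz]
    refine (norm_sub_le_norm_sub_add_norm_sub _ ψ _).trans ?_
    rw [norm_sub_rev ψ]; linarith
  refine ⟨z₁, z₂, x * v * cfcₙ j2 n * z₁, nz₁, nz₂, ?_, e22, ?_, ?_, ?_, ?_⟩
  · rw [hz₁, zz]; exact h11.le
  · rw [hz₁, hz₂, zz]; exact h12.le
  · rw [hz₂, ← mul_assoc, hpq]
  · have : x * (x * v * cfcₙ j2 n * z₁) = W₂ := by rw [hW₂, hX]; simp only [mul_assoc]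
    rw [this]; exact hvW₂
  · have : x * (x * v * cfcₙ j2 n * z₁) = W₂ := by rw [hW₂, hX]; simp only [mul_assoc]
    rw [this]; exact bW₂

lemma cross_tail {v z W : A} {β : ℝ} (hβ : 0 < β) (hW : star v * W = z) :
    ‖star W * (v - v * cfcₙ (clamp4 β) (z * star z))‖ ≤ Real.sqrt β := by
  have e : star W * (v - v * cfcₙ (clamp4 β) (z * star z))
      = star z - star z * cfcₙ (clamp4 β) (z * star z) := by
    have : star W * v = star z := by rw [← hW, star_mul, star_star]
    rw [mul_sub, ← mul_assoc, this]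
  set Z := z * star z with hZ
  have Z0 : 0 ≤ Z := mul_star_self_nonneg _
  have sZ := Z0.isSelfAdjoint
  set f := clamp4 β with hfdef
  have hf : Continuous f := continuous_clamp4 hβ
  have hf0 : f 0 = 0 := clamp4_zero β
  have hfb := clamp4_mem hβ
  set ρ := cfcₙ f Z with hρ
  have hρs : star ρ = ρ := star_cfcₙ _ _
  apply Real.le_sqrt_of_sq_le
  rw [norm_sq_right, e]
  have e2 : star (star z - star z * ρ) * (star z - star z * ρ)
      = Z - ρ * Z - Z * ρ + ρ * Z * ρ := by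
    simp only [star_sub, star_mul, star_star, hρs, hZ, mul_sub, sub_mul, mul_assoc]; abel
  rw [e2, hρ, cmul_id sZ hf hf0, id_cmul sZ hf hf0, cmul Z (by fun_prop) (by simp) hf hf0]
  conv_lhs => arg 1; arg 1; arg 1; arg 1; rw [← cfcₙ_id' ℝ Z sZ]
  rw [← cfcₙ_sub _ _ Z (by fun_prop) (by simp) (by fun_prop) (by simp),
    ← cfcₙ_sub _ _ Z (by fun_prop) (by simp [hf0]) (by fun_prop) (by simp),
    ← cfcₙ_add _ _ Z (by fun_prop) (by simp [hf0]) (by fun_prop) (by simp)]
  refine norm_cfcₙ_le_of_nonneg Z0 fun t ht => ?_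
  obtain ⟨r0, r1⟩ := hfb t ht
  rcases le_or_gt β t with h | h
  · have : f t = 1 := by
      simp only [hfdef, clamp4]; rw [max_eq_left h, div_self (by linarith), one_pow]
    rw [this]; simp [hβ.le]
  · have e3 : t - f t * t - t * f t + f t * t * f t = t * ((1 - f t) * (1 - f t)) := by ring
    rw [e3, abs_of_nonneg (mul_nonneg ht (mul_self_nonneg _))]
    calc t * ((1 - f t) * (1 - f t)) ≤ t * 1 := by
          refine mul_le_mul_of_nonneg_left ?_ ht; nlinarith
      _ ≤ β := by linarith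

/-- main construction -/
lemma core (hA : IsPurelyInfinite A) {x p v : A} (hx : 0 ≤ x) (hp : IsStarProjection p)
    (hv : star v * v = p) {c κ : ℝ} (hc : 0 < c) (hc1 : 2 * c ≤ 1) (hκ : 0 < κ) :
    ∃ (S S' B B' : A), 0 ≤ S ∧ 0 ≤ S' ∧ S = x * B ∧ S' = v * B' ∧ ‖S * S'‖ ≤ κ ∧
      Near (posCut c S) ((2 * ‖x‖ + 6 * ‖x‖ ^ 2) * Real.sqrt (2 * c)) (x * x) ∧
      Near (posCut c S') (34 * Real.sqrt (Real.sqrt (2 * c))) p := by
  set M := ‖x‖
  have hM : 0 ≤ M := norm_nonneg _
  set σ := Real.sqrt (2 * c)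
  have hσ : 0 < σ := Real.sqrt_pos.2 (by linarith)
  set a₁ := (κ / (16 * (M + 1))) ^ 2 with ha₁def
  have ha₁ : 0 < a₁ := by positivity
  have sqa₁ : Real.sqrt a₁ = κ / (16 * (M + 1)) := Real.sqrt_sq (by positivity)
  set a := a₁ / 4 with hadef
  have ha : 0 < a := by positivity
  set β := (κ * a / (16 * (M ^ 2 + 1))) ^ 2 with hβdef
  have hβ : 0 < β := by positivity
  have sqβ : Real.sqrt β = κ * a / (16 * (M ^ 2 + 1)) := Real.sqrt_sq (by positivity)
  set η := min (1/2) (min σ (σ * β ^ 2 / 80)) with hηdef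
  have hη : 0 < η := lt_min (by norm_num) (lt_min hσ (by positivity))
  have hη1 : η ≤ 1/2 := min_le_left _ _
  have hη2 : η ≤ σ := (min_le_right _ _).trans (min_le_left _ _)
  have hη3 : 80 * η / β ^ 2 ≤ σ := by
    have : η ≤ σ * β ^ 2 / 80 := (min_le_right _ _).trans (min_le_right _ _)
    rw [div_le_iff₀ (by positivity)]; linarith
  have hps := hp.isSelfAdjoint.star_eq
  have hpp : p * p = p := hp.isIdempotentElem
  have hv1 : ‖v‖ ≤ 1 := norm_star_mul_le_one hp hv
  have hvp : v * p = v := by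
    have e : star (v * p - v) * (v * p - v) = 0 := by
      have : star (v * p - v) * (v * p - v)
          = p * (star v * v) * p - p * (star v * v) - (star v * v) * p + star v * v := by
        simp only [star_sub, star_mul, hps, mul_sub, sub_mul, mul_assoc]; abel
      rw [this, hv, hpp, hpp]; abel
    rwa [CStarRing.star_mul_self_eq_zero_iff, sub_eq_zero] at e
  obtain ⟨v₁, D, B₁, hB₁, bvv₁, hDD, hDψ, bv₁, bD⟩ := exists_head hx hv1 hvp hps ha₁
  obtain ⟨z₁, z₂, L, nz₁, nz₂, hzψ, e22, h12, hpz, hvW₂, bW₂⟩ :=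
    exists_halves hA hx hv1 hvp hps ha hη hη1
  set ρ := cfcₙ (clamp4 β) (z₁ * star z₁) with hρ
  set w := v - v * ρ with hw
  have bρ : ‖ρ‖ ≤ 1 := norm_cfcₙ_le_of_nonneg (mul_star_self_nonneg _) fun t ht => by
    rw [abs_of_nonneg (clamp4_mem hβ t ht).1]; exact (clamp4_mem hβ t ht).2
  have bw : ‖w‖ ≤ 2 := by
    refine (norm_sub_le _ _).trans ?_
    have : ‖v * ρ‖ ≤ 1 := (norm_mul_le _ _).trans (mul_le_one₀ hv1 (norm_nonneg _) bρ)
    linarith
  have bW₂w : ‖star (x * L) * w‖ ≤ Real.sqrt β := cross_tail hβ hvW₂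
  have bv₁w : ‖star v₁ * w‖ ≤ 2 * Real.sqrt a₁ := by
    have h0 : ‖star v₁ * v‖ ≤ Real.sqrt a₁ := by
      rw [← norm_star, star_mul, star_star]; exact bvv₁
    have e : star v₁ * w = star v₁ * v - star v₁ * v * ρ := by rw [hw, mul_sub, mul_assoc]
    rw [e]
    refine (norm_sub_le _ _).trans ?_
    have : ‖star v₁ * v * ρ‖ ≤ Real.sqrt a₁ :=
      (norm_mul_le _ _).trans ((mul_le_mul h0 bρ (norm_nonneg _) (Real.sqrt_nonneg _)).trans_eq
        (mul_one _))
    linarith
  refine ⟨v₁ * star v₁ + x * L * star (x * L), w * star w, B₁ + L * star (x * L),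
    star w - ρ * star w, add_nonneg (mul_star_self_nonneg _) (mul_star_self_nonneg _),
    mul_star_self_nonneg _, ?_, ?_, ?_, ?_, ?_⟩
  · rw [mul_add, hB₁]; simp only [mul_assoc]
  · rw [mul_sub, hw, sub_mul, mul_assoc]
  · have e : (v₁ * star v₁ + x * L * star (x * L)) * (w * star w)
        = v₁ * (star v₁ * w) * star w + x * L * (star (x * L) * w) * star w := by
      simp only [add_mul, mul_assoc]
    rw [e]
    refine (norm_add_le _ _).trans ?_
    have k1 := (norm_mul3_le (a := v₁) (c := star w) bv₁w).trans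
      (mul_le_mul (mul_le_mul_of_nonneg_right bv₁ (by positivity))
        ((norm_star w).le.trans bw) (norm_nonneg _) (by positivity))
    have k2 := (norm_mul3_le (a := x * L) (c := star w) bW₂w).trans
      (mul_le_mul (mul_le_mul_of_nonneg_right bW₂ (Real.sqrt_nonneg _))
        ((norm_star w).le.trans bw) (norm_nonneg _) (by positivity))
    rw [sqa₁] at k1; rw [sqβ] at k2
    have k3 : M * (2 * (κ / (16 * (M + 1)))) * 2 ≤ κ / 4 := by
      rw [show M * (2 * (κ / (16 * (M + 1)))) * 2 = κ / 4 * (M / (M + 1)) by field_simp; ring]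
      exact mul_le_of_le_one_right (by positivity) ((div_le_one (by positivity)).2 (by linarith))
    have k4 : M ^ 2 * (1 / a) * 2 * (κ * a / (16 * (M ^ 2 + 1))) * 2 ≤ κ / 4 := by
      rw [show M ^ 2 * (1 / a) * 2 * (κ * a / (16 * (M ^ 2 + 1))) * 2
        = κ / 4 * (M ^ 2 / (M ^ 2 + 1)) by field_simp; ring]
      exact mul_le_of_le_one_right (by positivity) ((div_le_one (by positivity)).2 (by linarith))
    linarith
  · exact wside hA hc hc1 hM hη2 hv1 hDD hDψ hzψ nz₁ hvW₂ bv₁ bD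
  · exact tside hA hp hv hc hc1 hβ hη3 nz₁ nz₂ e22 h12 hpz

end Vale.Agent.P133
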