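import Mathlib

namespace Vale.Agent.P133

variable {A : Type*} [NonUnitalCStarAlgebra A] [PartialOrder A] [StarOrderedRing A]

/-- Cuntz comparison inside the algebra. -/
def CuntzLE (a b : A) : Prop :=
  ∀ ε : ℝ, 0 < ε → ∃ r : A, ‖star r * b * r - a‖ < ε

/-- `h ⊕ h` is Cuntz below `h`, written entrywise. -/
def ProperlyInfiniteElt (h : A) : Prop :=
  ∀ ε : ℝ, 0 < ε → ∃ d₁ d₂ : A,
    ‖star d₁ * h * d₁ - h‖ < ε ∧ ‖star d₂ * h * d₂ - h‖ < ε ∧
    ‖star d₁ * h * d₂‖ < ε ∧ ‖star d₂ * h * d₁‖ < ε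

/-- Every positive element is properly infinite. -/
def IsPurelyInfinite (A : Type*) [NonUnitalCStarAlgebra A] [PartialOrder A]
    [StarOrderedRing A] : Prop :=
  ∀ h : A, 0 ≤ h → ProperlyInfiniteElt h

/-- The cut-down `(a - δ)_+`. -/
noncomputable def posCut (δ : ℝ) (a : A) : A :=
  cfcₙ (fun t : ℝ => max (t - δ) 0) a

end Vale.Agent.P133
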