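import Vale.Agent.P133.Core

set_option linter.unusedSectionVars false

namespace Vale.Agent.P133

variable {A : Type*} [NonUnitalCStarAlgebra A] [PartialOrder A] [StarOrderedRing A]

/-- from an approximate `r` for `posCut c S` with `S = x B`, an element `s` -/
lemma extract {x S B r : A} {c e : ℝ} (hc : 0 < c) (hx : 0 ≤ x) (hS : 0 ≤ S) (hB : S = x * B)
    (hr : ‖star r * posCut c S * r - x * x‖ < e) :
    ∃ s : A, ‖star s * (x * x) * s - x * x‖ < e ∧ x * s = cfcₙ (scut c) S * r ∧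
      ‖cfcₙ (scut c) S * r‖ ^ 2 ≤ ‖x‖ ^ 2 + e := by
  have sS := hS.isSelfAdjoint
  have hl := continuous_lone hc
  have h1 : x * (B * (cfcₙ (lone c) S * r)) = cfcₙ (scut c) S * r := by
    rw [← mul_assoc x, ← hB, ← mul_assoc, id_cmul sS hl (lone_zero hc)]
    congr 2; funext t; exact id_mul_lone hc t
  have h2 : star (cfcₙ (scut c) S * r) * (cfcₙ (scut c) S * r) = star r * posCut c S * r := by
    have : cfcₙ (scut c) S * cfcₙ (scut c) S = posCut c S := by
      rw [cmul S (continuous_scut c) (scut_zero hc) (continuous_scut c) (scut_zero hc)]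
      unfold posCut
      congr 1; funext t; exact scut_mul_self c t
    rw [← this, star_mul, star_cfcₙ]; simp only [mul_assoc]
  refine ⟨B * (cfcₙ (lone c) S * r), ?_, h1, ?_⟩
  · have : star (B * (cfcₙ (lone c) S * r)) * (x * x) * (B * (cfcₙ (lone c) S * r))
        = star (x * (B * (cfcₙ (lone c) S * r))) * (x * (B * (cfcₙ (lone c) S * r))) := by
      simp only [star_mul, hx.isSelfAdjoint.star_eq, mul_assoc]
    rwa [this, h1, h2]
  · rw [norm_sq_right, h2]
    have h3 := norm_le_norm_add_norm_sub' (star r * posCut c S * r) (x * x)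
    have h4 : ‖x * x‖ ≤ ‖x‖ ^ 2 := (norm_mul_le _ _).trans_eq (sq _).symm
    linarith

lemma product_le {S S' r r' : A} {c κ : ℝ} (hc : 0 < c) (hS : 0 ≤ S) (hS' : 0 ≤ S')
    (hκ : 0 ≤ κ) (hprod : ‖S * S'‖ ≤ κ) :
    ‖star (cfcₙ (scut c) S * r) * (cfcₙ (scut c) S' * r')‖ ≤
      (‖cfcₙ (scut c) S * r‖ * ‖cfcₙ (scut c) S' * r'‖) * (κ / c ^ 2) := by
  have sS := hS.isSelfAdjoint
  have sS' := hS'.isSelfAdjoint
  have hi := continuous_inv1 hc
  have hsc := continuous_scut c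
  have hsc0 := scut_zero hc
  have e1 : cfcₙ (scut c) S = cfcₙ (scut c) S * cfcₙ (inv1 c) S * S := by
    rw [cmul S hsc hsc0 hi (inv1_zero c), cmul_id sS (by fun_prop) (by simp [hsc0])]
    congr 1; funext t; exact (scut_inv1 hc t).symm
  have e2 : cfcₙ (scut c) S' = S' * (cfcₙ (inv1 c) S' * cfcₙ (scut c) S') := by
    rw [cmul S' hi (inv1_zero c) hsc hsc0, id_cmul sS' (by fun_prop) (by simp [hsc0])]
    congr 1; funext t; rw [mul_comm t, mul_comm (inv1 c t)]; exact (scut_inv1 hc t).symm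
  have bi : ∀ Q : A, 0 ≤ Q → ‖cfcₙ (inv1 c) Q‖ ≤ 1 / c := fun Q hQ =>
    norm_cfcₙ_le_of_nonneg hQ fun t ht => abs_inv1_le hc ht
  set W := cfcₙ (scut c) S * r with hW
  set T := cfcₙ (scut c) S' * r' with hT
  have e3 : star W * T = star W * cfcₙ (inv1 c) S * (S * S') * (cfcₙ (inv1 c) S' * T) := by
    have hWs : star W = star r * cfcₙ (scut c) S := by rw [hW, star_mul, star_cfcₙ]
    rw [hWs, hT]
    conv_lhs => rw [e1, e2]
    simp only [mul_assoc]
  rw [e3]
  refine (norm_mul3_le hprod).trans ?_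
  calc ‖star W * cfcₙ (inv1 c) S‖ * κ * ‖cfcₙ (inv1 c) S' * T‖
      ≤ ‖W‖ * (1 / c) * κ * (1 / c * ‖T‖) := by
        refine mul_le_mul (mul_le_mul_of_nonneg_right ?_ hκ) ?_ (norm_nonneg _) (by positivity)
        · exact (norm_mul_le _ _).trans (mul_le_mul (norm_star W).le (bi S hS) (norm_nonneg _)
            (norm_nonneg _))
        · exact (norm_mul_le _ _).trans (mul_le_mul_of_nonneg_right (bi S' hS') (norm_nonneg _))
    _ = (‖W‖ * ‖T‖) * (κ / c ^ 2) := by field_simp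

lemma approx_sq {y p r₀ : A} (hy : 0 ≤ y) {δ : ℝ} (hδ : 0 < δ)
    (hr₀ : ‖star r₀ * p * r₀ - posCut δ y‖ < δ) :
    ∃ R : A, ‖star R * p * R - y * y‖ ≤ 2 * δ * ‖y‖ := by
  set Y := ‖y‖
  have hY : 0 ≤ Y := norm_nonneg _
  have sy := hy.isSelfAdjoint
  set yh := cfcₙ Real.sqrt y with hyh
  have yhs : star yh = yh := star_cfcₙ _ _
  have byh : ‖yh‖ ^ 2 ≤ Y := by
    have : ‖yh‖ ≤ Real.sqrt Y := norm_cfcₙ_le fun t ht => by
      have ht0 := quasispectrum_nonneg_of_nonneg y hy t ht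
      have : ‖t‖ ≤ Y := by
        have := norm_apply_le_norm_cfcₙ (id : ℝ → ℝ) y ht continuous_id.continuousOn rfl sy
        rwa [cfcₙ_id ℝ y sy] at this
      rw [Real.norm_eq_abs, abs_of_nonneg (Real.sqrt_nonneg _)]
      exact Real.sqrt_le_sqrt ((le_abs_self t).trans this)
    calc ‖yh‖ ^ 2 ≤ Real.sqrt Y ^ 2 := pow_le_pow_left₀ (norm_nonneg _) this 2
      _ = Y := Real.sq_sqrt hY
  set R := r₀ * yh
  have hR : ‖star R * p * R - y * y‖ ≤ 2 * δ * Y := by
    have e1 : star R * p * R - yh * posCut δ y * yh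
        = star yh * (star r₀ * p * r₀ - posCut δ y) * yh := by
      simp only [R, star_mul, yhs, mul_sub, sub_mul, mul_assoc]
    have b1 : ‖star R * p * R - yh * posCut δ y * yh‖ ≤ δ * Y := by
      rw [e1]
      refine (norm_conj_le _ _).trans ((mul_le_mul byh hr₀.le (norm_nonneg _) hY).trans_eq ?_)
      ring
    have b2 : ‖yh * posCut δ y * yh - y * y‖ ≤ δ * Y := by
      unfold posCut
      rw [hyh, cmul y (by fun_prop) (by simp) (by fun_prop) (by simp [hδ.le]),
        cmul y (by fun_prop) (by simp) (by fun_prop) (by simp)]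
      conv_lhs => arg 1; arg 2; rw [← cfcₙ_id' ℝ y sy]
      rw [cmul y (by fun_prop) rfl (by fun_prop) rfl,
        ← cfcₙ_sub _ _ y (by fun_prop) (by simp) (by fun_prop) (by simp)]
      refine norm_cfcₙ_le fun t ht => ?_
      have ht0 := quasispectrum_nonneg_of_nonneg y hy t ht
      have htY : |t| ≤ Y := by
        have := norm_apply_le_norm_cfcₙ (id : ℝ → ℝ) y ht continuous_id.continuousOn rfl sy
        rwa [cfcₙ_id ℝ y sy] at this
      have e : Real.sqrt t * max (t - δ) 0 * Real.sqrt t - t * t = t * (max (t - δ) 0 - t) := by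
        have := Real.mul_self_sqrt ht0
        linear_combination max (t - δ) 0 * this
      rw [Real.norm_eq_abs, e, abs_mul]
      have : |max (t - δ) 0 - t| ≤ δ := by
        rw [abs_le]
        constructor
        · linarith [le_max_left (t - δ) 0]
        · linarith [max_le (by linarith : t - δ ≤ t) ht0]
      calc |t| * |max (t - δ) 0 - t| ≤ Y * δ := mul_le_mul htY this (abs_nonneg _) hY
        _ = δ * Y := by ring
    linarith [norm_sub_le_norm_sub_add_norm_sub (star R * p * R) (yh * posCut δ y * yh) (y * y)]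
  exact ⟨R, hR⟩

/-- the pairing condition when the right entry is controlled by projections -/
lemma pair_right (hA : IsPurelyInfinite A) {x y : A} (hx : 0 ≤ x) (hy : 0 ≤ y)
    (hP : ∀ δ : ℝ, 0 < δ → ∃ p : A, IsStarProjection p ∧ CuntzLE p y ∧ CuntzLE (posCut δ y) p)
    {ε : ℝ} (hε : 0 < ε) :
    ∃ s t : A, ‖star s * (x * x) * s - x * x‖ < ε ∧ ‖star t * (y * y) * t - y * y‖ < ε ∧
      ‖star s * (x * y) * t‖ < ε := by
  set X := ‖x‖
  set Y := ‖y‖
  have hX : 0 ≤ X := norm_nonneg _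
  have hY : 0 ≤ Y := norm_nonneg _
  have sy := hy.isSelfAdjoint
  set δ := ε / (8 * (Y + 1)) with hδdef
  have hδ : 0 < δ := by positivity
  obtain ⟨p, hp, hpy, hyp⟩ := hP δ hδ
  obtain ⟨u, hu⟩ := exists_partial_isometry hy hp hpy
  obtain ⟨r₀, hr₀⟩ := hyp δ hδ
  obtain ⟨R, hR⟩ := approx_sq hy hδ hr₀
  set K₁ := 2 * X + 6 * X ^ 2 + 1 with hK₁
  set K₂ := 34 * ‖R‖ ^ 2 + 1 with hK₂
  have hK₁0 : 0 < K₁ := by positivity
  have hK₂0 : 0 < K₂ := by positivity
  set q := min 1 (min (ε / (4 * K₁)) (ε / (4 * K₂))) with hq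
  have hq0 : 0 < q := lt_min one_pos (lt_min (by positivity) (by positivity))
  have hq1 : q ≤ 1 := min_le_left _ _
  have hqa : q * K₁ ≤ ε / 4 := by
    have : q ≤ ε / (4 * K₁) := (min_le_right _ _).trans (min_le_left _ _)
    rw [le_div_iff₀ (by positivity)] at this; linarith
  have hqb : q * K₂ ≤ ε / 4 := by
    have : q ≤ ε / (4 * K₂) := (min_le_right _ _).trans (min_le_right _ _)
    rw [le_div_iff₀ (by positivity)] at this; linarith
  set c := q ^ 4 / 2 with hcdef
  have hc : 0 < c := by positivity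
  have hc1 : 2 * c ≤ 1 := by
    have : q ^ 4 ≤ 1 := pow_le_one₀ hq0.le hq1
    rw [hcdef]; linarith
  have hσ : Real.sqrt (2 * c) = q ^ 2 := by
    rw [show 2 * c = (q ^ 2) ^ 2 by rw [hcdef]; ring, Real.sqrt_sq (by positivity)]
  have hσσ : Real.sqrt (Real.sqrt (2 * c)) = q := by rw [hσ, Real.sqrt_sq hq0.le]
  set V := X ^ 2 + Y ^ 2 + ε + 1
  have hV : 0 < V := by positivity
  set κ := ε * c ^ 2 / (2 * V) with hκdef
  have hκ : 0 < κ := by positivity
  obtain ⟨S, S', B, B', hS, hS', hB, hB', hprod, nx, np⟩ := core hA hx hp hu hc hc1 hκ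
  obtain ⟨r, hr⟩ := nx (ε / 4) (by positivity)
  obtain ⟨r', hr'⟩ := ((np.conj R).dist (b := y * y)) (ε / 8) (by positivity)
  rw [hσ] at hr
  rw [hσσ] at hr'
  have hεx : ‖star r * posCut c S * r - x * x‖ < ε := by
    refine hr.trans_le ?_
    have h1 : (2 * X + 6 * X ^ 2) * q ^ 2 ≤ q * K₁ := by
      have : q ^ 2 ≤ q := by nlinarith
      nlinarith
    linarith
  have hεy : ‖star r' * posCut c S' * r' - y * y‖ < ε := by
    refine hr'.trans_le ?_
    have h1 : ‖R‖ ^ 2 * (34 * q) ≤ q * K₂ := by nlinarith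
    have h2 : 2 * δ * Y ≤ ε / 4 := by
      rw [hδdef]
      rw [show 2 * (ε / (8 * (Y + 1))) * Y = ε / 4 * (Y / (Y + 1)) by field_simp; ring]
      exact mul_le_of_le_one_right (by positivity) ((div_le_one (by positivity)).2 (by linarith))
    linarith
  obtain ⟨s, hs1, hs2, hs3⟩ := extract hc hx hS hB hεx
  obtain ⟨t, ht1, ht2, ht3⟩ := extract hc hy hS'
    (show S' = y * (u * B') by rw [← mul_assoc]; exact hB') hεy
  refine ⟨s, t, hs1, ht1, ?_⟩
  set W := cfcₙ (scut c) S * r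
  set T := cfcₙ (scut c) S' * r'
  have e0 : star s * (x * y) * t = star W * T := by
    rw [← hs2, ← ht2, star_mul, hx.isSelfAdjoint.star_eq]
    simp only [mul_assoc]
  have bW : ‖W‖ * ‖T‖ ≤ V := by nlinarith [sq_nonneg (‖W‖ - ‖T‖)]
  rw [e0]
  refine lt_of_le_of_lt (product_le hc hS hS' hκ.le hprod) ?_
  calc (‖W‖ * ‖T‖) * (κ / c ^ 2) = (‖W‖ * ‖T‖) * (ε / (2 * V)) := by rw [hκdef]; field_simp
    _ ≤ V * (ε / (2 * V)) := mul_le_mul_of_nonneg_right bW (by positivity)
    _ = ε / 2 := by field_simp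
    _ < ε := by linarith

end Vale.Agent.P133
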