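import Vale.Agent.P133.Basic

/-!
# Scalar functions for the ideal-gap pairing
-/

set_option linter.unusedSectionVars false

namespace Vale.Agent.P133

/-- rises from `0` at `t` to `1` at `t'` -/
noncomputable def gψ (t t' s : ℝ) : ℝ := max (s - t) 0 / max (s - t) (t' - t)

/-- `gψ / s` -/
noncomputable def gm (t t' s : ℝ) : ℝ := gψ t t' s / max s t

/-- `(2 - gψ) gψ / s` -/
noncomputable def gn (t t' s : ℝ) : ℝ := gψ t t' s * (2 - gψ t t' s) / max s t

/-- `(2 - gψ) gψ` -/
noncomputable def gn2 (t t' s : ℝ) : ℝ := gψ t t' s * (2 - gψ t t' s)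

noncomputable def gcut (t s : ℝ) : ℝ := min (max s 0 / t) 1

noncomputable def gl (t t' s : ℝ) : ℝ :=
  gcut t s * Real.sqrt ((2 - gψ t t' s) / (max (s - t) (t' - t) * max s t))

noncomputable def gl2 (t t' s : ℝ) : ℝ :=
  gcut t s * Real.sqrt ((2 - gψ t t' s) / max (s - t) (t' - t))

/-- `sqrt ((s - t')₊ / s)` -/
noncomputable def gφ (t' s : ℝ) : ℝ := scut t' s / Real.sqrt (max s t')

variable {t t' : ℝ}

lemma gψ_den_pos (h : t < t') (s : ℝ) : 0 < max (s - t) (t' - t) :=
  lt_max_of_lt_right (sub_pos.2 h)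

lemma continuous_gψ (h : t < t') : Continuous (gψ t t') :=
  Continuous.div (by fun_prop) (by fun_prop) fun s => (gψ_den_pos h s).ne'

lemma gψ_of_le {s : ℝ} (hs : s ≤ t) : gψ t t' s = 0 := by
  simp [gψ, max_eq_right (sub_nonpos.2 hs)]

lemma gψ_of_ge (h : t < t') {s : ℝ} (hs : t' ≤ s) : gψ t t' s = 1 := by
  have h1 : t' - t ≤ s - t := by linarith
  rw [gψ, max_eq_left (by linarith : (0:ℝ) ≤ s - t), max_eq_left h1, div_self (by linarith)]

lemma gψ_mem (h : t < t') (s : ℝ) : 0 ≤ gψ t t' s ∧ gψ t t' s ≤ 1 := by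
  have hd := gψ_den_pos h s
  refine ⟨div_nonneg (le_max_right _ _) hd.le, (div_le_one hd).2 ?_⟩
  exact max_le (le_max_left _ _) hd.le

lemma gcut_eq_one (ht : 0 < t) {s : ℝ} (hs : t ≤ s) : gcut t s = 1 := by
  have : 1 ≤ max s 0 / t := by
    rw [le_div_iff₀ ht, one_mul]; exact hs.trans (le_max_left _ _)
  simp [gcut, this]

lemma continuous_gm (ht : 0 < t) (h : t < t') : Continuous (gm t t') :=
  (continuous_gψ h).div (by fun_prop) fun _ => (lt_max_of_lt_right ht).ne'

lemma continuous_gn (ht : 0 < t) (h : t < t') : Continuous (gn t t') :=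
  ((continuous_gψ h).mul (continuous_const.sub (continuous_gψ h))).div (by fun_prop)
    fun _ => (lt_max_of_lt_right ht).ne'

lemma continuous_gn2 (h : t < t') : Continuous (gn2 t t') :=
  (continuous_gψ h).mul (continuous_const.sub (continuous_gψ h))

lemma continuous_gcut (t : ℝ) : Continuous (gcut t) := by unfold gcut; fun_prop

lemma continuous_gl (ht : 0 < t) (h : t < t') : Continuous (gl t t') :=
  (continuous_gcut t).mul (Real.continuous_sqrt.comp
    ((continuous_const.sub (continuous_gψ h)).div (by fun_prop) fun s =>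
      (mul_pos (gψ_den_pos h s) (lt_max_of_lt_right ht)).ne'))

lemma continuous_gl2 (h : t < t') : Continuous (gl2 t t') :=
  (continuous_gcut t).mul (Real.continuous_sqrt.comp
    ((continuous_const.sub (continuous_gψ h)).div (by fun_prop) fun s => (gψ_den_pos h s).ne'))

lemma continuous_gφ (ht' : 0 < t') : Continuous (gφ t') :=
  (continuous_scut t').div (by fun_prop) fun s =>
    (Real.sqrt_pos.2 (lt_max_of_lt_right ht')).ne'

lemma gψ_zero (ht : 0 < t) : gψ t t' 0 = 0 := gψ_of_le ht.le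
lemma gm_zero (ht : 0 < t) : gm t t' 0 = 0 := by simp [gm, gψ_zero ht]
lemma gn_zero (ht : 0 < t) : gn t t' 0 = 0 := by simp [gn, gψ_zero ht]
lemma gn2_zero (ht : 0 < t) : gn2 t t' 0 = 0 := by simp [gn2, gψ_zero ht]
lemma gl_zero (t t' : ℝ) : gl t t' 0 = 0 := by simp [gl, gcut]
lemma gl2_zero (t t' : ℝ) : gl2 t t' 0 = 0 := by simp [gl2, gcut]
lemma gφ_zero (ht' : 0 < t') : gφ t' 0 = 0 := by simp [gφ, scut_zero ht']

lemma id_mul_gm (ht : 0 < t) (s : ℝ) : s * gm t t' s = gψ t t' s := by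
  rcases le_or_gt s t with hs | hs
  · simp [gm, gψ_of_le hs]
  · rw [gm, max_eq_left hs.le]; field_simp [show s ≠ 0 by linarith]

lemma gn_eq (s : ℝ) (ht : 0 < t) :
    gn t t' s = 2 * gm t t' s - gm t t' s * s * gm t t' s := by
  rw [mul_comm (gm t t' s) s, id_mul_gm ht s, gn, gm]
  have := lt_max_of_lt_right (a := 0) (b := s) ht
  field_simp

lemma gn_nonneg (ht : 0 < t) (h : t < t') (s : ℝ) : 0 ≤ gn t t' s := by
  obtain ⟨h0, h1⟩ := gψ_mem h s
  exact div_nonneg (mul_nonneg h0 (by linarith)) (lt_max_of_lt_right ht).le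

lemma gn2_nonneg (h : t < t') (s : ℝ) : 0 ≤ gn2 t t' s := by
  obtain ⟨h0, h1⟩ := gψ_mem h s
  exact mul_nonneg h0 (by linarith)

lemma gl_sq (ht : 0 < t) (h : t < t') (s : ℝ) :
    gl t t' s * max (s - t) 0 * gl t t' s = gn t t' s := by
  rcases le_or_gt s t with hs | hs
  · simp [gn, gψ_of_le hs, max_eq_right (sub_nonpos.2 hs)]
  · obtain ⟨h0, h1⟩ := gψ_mem h s
    have hd := gψ_den_pos h s
    have hm : 0 < max s t := lt_max_of_lt_right ht
    have hq : 0 ≤ (2 - gψ t t' s) / (max (s - t) (t' - t) * max s t) :=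
      div_nonneg (by linarith) (mul_pos hd hm).le
    rw [gl, gcut_eq_one ht hs.le, one_mul]
    calc Real.sqrt _ * max (s - t) 0 * Real.sqrt _
        = max (s - t) 0 * (Real.sqrt ((2 - gψ t t' s) / (max (s - t) (t' - t) * max s t)) *
            Real.sqrt ((2 - gψ t t' s) / (max (s - t) (t' - t) * max s t))) := by ring
      _ = gn t t' s := by
          rw [Real.mul_self_sqrt hq, gn, gψ]
          field_simp

lemma gl2_sq (ht : 0 < t) (h : t < t') (s : ℝ) :
    gl2 t t' s * max (s - t) 0 * gl2 t t' s = gn2 t t' s := by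
  rcases le_or_gt s t with hs | hs
  · simp [gn2, gψ_of_le hs, max_eq_right (sub_nonpos.2 hs)]
  · obtain ⟨h0, h1⟩ := gψ_mem h s
    have hd := gψ_den_pos h s
    have hq : 0 ≤ (2 - gψ t t' s) / max (s - t) (t' - t) := div_nonneg (by linarith) hd.le
    rw [gl2, gcut_eq_one ht hs.le, one_mul]
    calc Real.sqrt _ * max (s - t) 0 * Real.sqrt _
        = max (s - t) 0 * (Real.sqrt ((2 - gψ t t' s) / max (s - t) (t' - t)) *
            Real.sqrt ((2 - gψ t t' s) / max (s - t) (t' - t))) := by ring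
      _ = gn2 t t' s := by
          rw [Real.mul_self_sqrt hq, gn2, gψ]
          field_simp

lemma gφ_of_le {s : ℝ} (hs : s ≤ t') : gφ t' s = 0 := by simp [gφ, scut_eq_zero hs]

lemma gφ_sq (ht' : 0 < t') (s : ℝ) : gφ t' s * s * gφ t' s = max (s - t') 0 := by
  rcases le_or_gt s t' with hs | hs
  · simp [gφ_of_le hs, max_eq_right (sub_nonpos.2 hs)]
  · have hs0 : 0 < s := by linarith
    rw [gφ, max_eq_left hs.le, div_mul_eq_mul_div, div_mul_div_comm, Real.mul_self_sqrt hs0.le,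
      mul_right_comm, scut_mul_self]
    field_simp

lemma gφ_gψ (h : t < t') (s : ℝ) : gψ t t' s * gφ t' s = gφ t' s := by
  rcases le_or_gt s t' with hs | hs
  · simp [gφ_of_le hs]
  · rw [gψ_of_ge h hs.le, one_mul]

lemma gφ_mem (ht' : 0 < t') (s : ℝ) :
    gφ t' s * gφ t' s ≤ max (s - t') 0 / t' := by
  rcases le_or_gt s t' with hs | hs
  · simp only [gφ_of_le hs, mul_zero]; positivity
  · rw [gφ, max_eq_left hs.le, div_mul_div_comm, Real.mul_self_sqrt (by linarith : 0 ≤ s),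
      scut_mul_self]
    exact div_le_div_of_nonneg_left (le_max_right _ _) ht' hs.le

end Vale.Agent.P133
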