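import Vale.Agent.P133.Final
import Vale.Agent.P133.GapFuncs

/-!
# Pairing when `|xy|` has a gap in its ideals

`K = y x² y`. If `(K - t)₊ ≾ (K - t')₊` with `t < t'` small, then `x` is covered by the part killed
at level `t'` together with one half of the band above `t'`, and likewise `y`.
-/

set_option linter.unusedSectionVars false

namespace Vale.Agent.P133

variable {A : Type*} [NonUnitalCStarAlgebra A] [PartialOrder A] [StarOrderedRing A]

lemma Near.trans_cuntz {F a b : A} (h : Near F 0 a) (hb : CuntzLE b a) : Near F 0 b := fun δ hδ => by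
  obtain ⟨r, hr⟩ := hb (δ / 2) (half_pos hδ)
  obtain ⟨s, hs⟩ := ((h.conj r).dist (b := b)) (δ / 2) (half_pos hδ)
  exact ⟨s, hs.trans_le (by rw [mul_zero]; linarith)⟩

lemma posCut_nonneg (c : ℝ) (a : A) : 0 ≤ posCut c a :=
  cfcₙ_nonneg fun _ _ => le_max_right _ _

lemma posCut_norm_le {c : ℝ} (hc : 0 ≤ c) {a : A} (ha : 0 ≤ a) : ‖posCut c a‖ ≤ ‖a‖ := by
  refine norm_cfcₙ_le fun s hs => ?_
  have h0 := quasispectrum_nonneg_of_nonneg a ha s hs
  have h1 : |s| ≤ ‖a‖ := by
    have := norm_apply_le_norm_cfcₙ (id : ℝ → ℝ) a hs continuous_id.continuousOn rfl ha.isSelfAdjoint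
    rwa [cfcₙ_id ℝ a ha.isSelfAdjoint] at this
  rw [Real.norm_eq_abs, abs_of_nonneg (le_max_right _ _)]
  exact (max_le (by linarith) h0).trans ((le_abs_self s).trans h1)

lemma near_both {S b : A} {c : ℝ} (hc : 0 < c) (hS : 0 ≤ S) (hb : b * star b ≤ S) :
    Near (posCut c S) (2 * ‖b‖ * Real.sqrt (2 * c)) (star b * b) ∧
      Near (posCut c S) (2 * ‖b‖ * Real.sqrt (2 * c)) (b * star b) := by
  set G := cfcₙ (ramp c) S
  have hG : star G = G := star_cfcₙ _ _
  have G1 : ‖G‖ ≤ 1 := norm_cfcₙ_le_of_nonneg hS fun s _ => by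
    rw [abs_of_nonneg (ramp_nonneg c s)]; exact ramp_le_one c s
  have h1 : ‖b - G * b‖ ≤ Real.sqrt (2 * c) := tail_le hc hS hb
  have h2 : ‖G * b‖ ≤ ‖b‖ := (norm_mul_le _ _).trans (mul_le_of_le_one_left (norm_nonneg _) G1)
  have h3 : ‖G * b - b‖ * (‖G * b‖ + ‖b‖) ≤ 2 * ‖b‖ * Real.sqrt (2 * c) := by
    rw [norm_sub_rev]
    calc _ ≤ Real.sqrt (2 * c) * (‖b‖ + ‖b‖) := by gcongr
      _ = _ := by ring
  constructor
  · have e : star b * (G * G) * b = star (G * b) * (G * b) := by
      simp only [star_mul, hG, mul_assoc]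
    refine ((near_base hc b).dist (b := star b * b)).mono ?_
    rw [zero_add, e]
    exact (norm_sub_sq_le _ _).trans h3
  · have e : G * (b * star b) * G = star (star (G * b)) * star (G * b) := by
      simp only [star_mul, star_star, hG, mul_assoc]
    refine ((near_gMg hc (mul_star_self_nonneg b)).dist (b := b * star b)).mono ?_
    rw [zero_add, e]
    have := norm_sub_sq_le (star (G * b)) (star b)
    rw [star_star b, ← star_sub, norm_star, norm_star, norm_star] at this
    exact this.trans h3

/-- renormalising a member `w` with the help of a partner `u` -/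
lemma member (w u r : A) {δ : ℝ} (hδ : 0 < δ) :
    ∃ m : A, ‖m‖ ≤ Real.sqrt (1 / δ) * ‖star w * u‖ * ‖r‖ ∧
      ‖star (w * m) * (w * m) - star r * (star (star w * u) * (star w * u)) * r‖ ≤
        ‖r‖ ^ 2 * (‖star w * u‖ * (Real.sqrt δ * ‖u‖)) := by
  set F := star w * w with hF
  set Z := star w * u with hZ
  have F0 : 0 ≤ F := star_mul_self_nonneg _
  have sF := F0.isSelfAdjoint
  set k : ℝ → ℝ := fun s => Real.sqrt s / max s δ with hk_def
  have hm : ∀ s : ℝ, 0 < max s δ := fun s => lt_max_of_lt_right hδ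
  have hk : Continuous k := Real.continuous_sqrt.div (by fun_prop) fun s => (hm s).ne'
  have hk0 : k 0 = 0 := by simp [k]
  set p : ℝ → ℝ := fun s => k s * s * k s with hp_def
  have hp : Continuous p := (hk.mul continuous_id).mul hk
  have hp0 : p 0 = 0 := by simp [p]
  have kb : ‖cfcₙ k F‖ ≤ Real.sqrt (1 / δ) := norm_cfcₙ_le_of_nonneg F0 fun s hs => by
    refine Real.le_sqrt_of_sq_le ?_
    simp only [k]
    rw [sq_abs, div_pow, Real.sq_sqrt hs, div_le_div_iff₀ (by have := hm s; positivity) hδ, one_mul]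
    nlinarith [le_max_left s δ, le_max_right s δ]
  set P := cfcₙ p F with hPd
  have hPs : star P = P := star_cfcₙ _ _
  have tail : ‖star w - P * star w‖ ≤ Real.sqrt δ := by
    apply Real.le_sqrt_of_sq_le
    have e : (star w - P * star w) * star (star w - P * star w) = F - P * F - F * P + P * F * P := by
      simp only [star_sub, star_mul, star_star, hPs, hF, mul_sub, sub_mul, mul_assoc]; abel
    rw [norm_sq_left, e, hPd, cmul_id sF hp hp0, id_cmul sF hp hp0,
      cmul F (by fun_prop) (by simp [hp0]) hp hp0]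
    conv_lhs => arg 1; arg 1; arg 1; arg 1; rw [← cfcₙ_id' ℝ F sF]
    rw [← cfcₙ_sub _ _ F (by fun_prop) (by simp) (by fun_prop) (by simp),
      ← cfcₙ_sub _ _ F (by fun_prop) (by simp [hp0]) (by fun_prop) (by simp),
      ← cfcₙ_add _ _ F (by fun_prop) (by simp [hp0]) (by fun_prop) (by simp)]
    refine norm_cfcₙ_le_of_nonneg F0 fun s hs => ?_
    have ep : p s = s ^ 2 / max s δ ^ 2 := by
      simp only [p, k]
      rw [show Real.sqrt s / max s δ * s * (Real.sqrt s / max s δ)
        = (Real.sqrt s * Real.sqrt s) * s / (max s δ * max s δ) by ring, Real.mul_self_sqrt hs]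
      ring
    have e3 : s - p s * s - s * p s + p s * s * p s = s * ((1 - p s) * (1 - p s)) := by ring
    rw [e3, abs_of_nonneg (mul_nonneg hs (mul_self_nonneg _))]
    rcases le_or_gt δ s with h | h
    · have : p s = 1 := by
        rw [ep, max_eq_left h]; exact div_self (by have : (0:ℝ) < s := by linarith
                                                   positivity)
      rw [this]; simp [hδ.le]
    · have h1 : 0 ≤ p s := by rw [ep]; positivity
      have h2 : p s ≤ 1 := by
        rw [ep, div_le_one (by have := hm s; positivity)]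
        exact pow_le_pow_left₀ hs (le_max_left _ _) 2
      calc s * ((1 - p s) * (1 - p s)) ≤ s * 1 :=
            mul_le_mul_of_nonneg_left (by nlinarith) hs
        _ ≤ δ := by linarith
  refine ⟨cfcₙ k F * Z * r, ?_, ?_⟩
  · exact (norm_mul_le _ _).trans (mul_le_mul_of_nonneg_right ((norm_mul_le _ _).trans
      (mul_le_mul_of_nonneg_right kb (norm_nonneg _))) (norm_nonneg _))
  · have hkFk : cfcₙ k F * F * cfcₙ k F = P := by
      rw [cmul_id sF hk hk0, cmul F (by fun_prop) (by simp [hk0]) hk hk0]
    have e : star (w * (cfcₙ k F * Z * r)) * (w * (cfcₙ k F * Z * r)) - star r * (star Z * Z) * r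
        = star r * -(star Z * (Z - P * Z)) * r := by
      have : star (w * (cfcₙ k F * Z * r)) * (w * (cfcₙ k F * Z * r))
          = star r * (star Z * (cfcₙ k F * F * cfcₙ k F * Z)) * r := by
        simp only [star_mul, star_cfcₙ, hF, mul_assoc]
      rw [this, hkFk]
      simp only [mul_sub, neg_sub, sub_mul, mul_assoc]
    rw [e]
    refine (norm_conj_le _ _).trans (mul_le_mul_of_nonneg_left ?_ (sq_nonneg _))
    rw [norm_neg]
    refine (norm_mul_le _ _).trans ?_
    rw [norm_star]
    refine mul_le_mul_of_nonneg_left ?_ (norm_nonneg _)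
    have : Z - P * Z = (star w - P * star w) * u := by rw [hZ, sub_mul, mul_assoc]
    rw [this]
    exact (norm_mul_le _ _).trans (mul_le_mul_of_nonneg_right tail (norm_nonneg _))

end Vale.Agent.P133
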