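import Vale.Agent.P133.Gap

/-!
# The pairing condition under an ideal gap of `y x² y`
-/

set_option linter.unusedSectionVars false

namespace Vale.Agent.P133

variable {A : Type*} [NonUnitalCStarAlgebra A] [PartialOrder A] [StarOrderedRing A]

lemma near_self {a : A} (ha : 0 ≤ a) : Near (a * a) 0 (a * a) := fun δ hδ => by
  set e := min 1 (δ / 2)
  have he : 0 < e := lt_min one_pos (half_pos hδ)
  have sa := ha.isSelfAdjoint
  have hg := continuous_gcut e
  have hg0 : gcut e 0 = 0 := by simp [gcut]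
  refine ⟨cfcₙ (gcut e) a, ?_⟩
  rw [star_cfcₙ, zero_add]
  have e1 : cfcₙ (gcut e) a * (a * a) * cfcₙ (gcut e) a
      = cfcₙ (fun s => gcut e s * s * (s * gcut e s)) a := by
    rw [← mul_assoc, mul_assoc (cfcₙ (gcut e) a * a), cmul_id sa hg hg0, id_cmul sa hg hg0]
    exact cmul a (by fun_prop) (by simp) (by fun_prop) (by simp)
  have e2 : a * a = cfcₙ (fun s : ℝ => s * s) a := by
    conv_lhs => rw [← cfcₙ_id' ℝ a sa]
    exact cmul a continuous_id rfl continuous_id rfl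
  rw [e1, e2, ← cfcₙ_sub _ _ a (by fun_prop) (by simp [hg0]) (by fun_prop) (by simp)]
  refine lt_of_le_of_lt (norm_cfcₙ_le_of_nonneg ha (C := e) fun s hs => ?_)
    ((min_le_right _ _).trans_lt (half_lt_self hδ))
  rcases le_or_gt e s with h | h
  · rw [gcut_eq_one he h]; simp [he.le]
  · have g0 : 0 ≤ gcut e s := le_min (div_nonneg (le_max_right _ _) he.le) zero_le_one
    have g1 : gcut e s ≤ 1 := min_le_right _ _
    have hs1 : s ≤ 1 := h.le.trans (min_le_left _ _)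
    have : gcut e s * s * (s * gcut e s) - s * s = -(s * s * (1 - gcut e s * gcut e s)) := by ring
    rw [this, abs_neg, abs_of_nonneg (mul_nonneg (mul_self_nonneg _) (by nlinarith))]
    calc s * s * (1 - gcut e s * gcut e s) ≤ s * 1 * 1 := by gcongr <;> nlinarith
      _ ≤ e := by linarith

/-- one side: a family member for the band and its target -/
lemma side (w u v n r Z Q : A) {δ η ζ : ℝ} (hδ : 0 < δ) (hZ : Z = star w * u)
    (hZQ : ‖Z - Q‖ ≤ η) (hQ : star Q = Q) (hr : ‖star r * (Q * Q) * r - n‖ ≤ ζ) :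
    ∃ m : A, ‖m‖ ≤ Real.sqrt (1 / δ) * ‖Z‖ * ‖r * v‖ ∧
      ‖star (w * m) * (w * m) - star v * n * v‖ ≤
        ‖r * v‖ ^ 2 * (‖Z‖ * (Real.sqrt δ * ‖u‖) + η * (‖Z‖ + ‖Q‖)) + ‖v‖ ^ 2 * ζ := by
  subst hZ
  obtain ⟨m, hm, he⟩ := member w u (r * v) hδ
  refine ⟨m, hm, ?_⟩
  set Z := star w * u
  have h1 : ‖star (r * v) * (star Z * Z) * (r * v) - star (r * v) * (Q * Q) * (r * v)‖
      ≤ ‖r * v‖ ^ 2 * (η * (‖Z‖ + ‖Q‖)) := by
    rw [← sub_mul, ← mul_sub]
    refine (norm_conj_le _ _).trans (mul_le_mul_of_nonneg_left ?_ (sq_nonneg _))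
    have := norm_sub_sq_le Z Q
    rw [hQ] at this
    exact this.trans (mul_le_mul_of_nonneg_right hZQ (by positivity))
  have h2 : ‖star (r * v) * (Q * Q) * (r * v) - star v * n * v‖ ≤ ‖v‖ ^ 2 * ζ := by
    have e : star (r * v) * (Q * Q) * (r * v) - star v * n * v
        = star v * (star r * (Q * Q) * r - n) * v := by
      simp only [star_mul, mul_sub, sub_mul, mul_assoc]
    rw [e]
    exact (norm_conj_le _ _).trans (mul_le_mul_of_nonneg_left hr (sq_nonneg _))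
  have h3 := norm_sub_le_norm_sub_add_norm_sub (star (w * m) * (w * m))
    (star (r * v) * (star Z * Z) * (r * v)) (star v * n * v)
  have h4 := norm_sub_le_norm_sub_add_norm_sub (star (r * v) * (star Z * Z) * (r * v))
    (star (r * v) * (Q * Q) * (r * v)) (star v * n * v)
  rw [mul_add]
  linarith

/-- everything needed from the functional calculus of `K` -/
lemma gap_facts {K : A} (K0 : 0 ≤ K) {t t' : ℝ} (ht : 0 < t) (htt : t < t')
    (hgap : CuntzLE (posCut t K) (posCut t' K)) :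
    ∃ ψ m n n2 φ Q : A, (star ψ = ψ ∧ star m = m ∧ star φ = φ ∧ star n2 = n2) ∧
      (0 ≤ n ∧ 0 ≤ n2 ∧ 0 ≤ Q) ∧
      (m * K = ψ ∧ m + m - m * K * m = n ∧ ψ + ψ - ψ * ψ = n2 ∧ ψ * φ = φ ∧
        φ * K * ψ = φ * K ∧ φ * K * φ = Q) ∧
      ‖K - n2 * K - K * n2 + n2 * K * n2‖ ≤ t' ∧
      (∀ d : A, ‖φ * d‖ ^ 2 ≤ 1 / t' * ‖star d * Q * d‖) ∧
      Near (Q * Q) 0 n ∧ Near (Q * Q) 0 n2 := by
  have ht' : 0 < t' := ht.trans htt
  have sK := K0.isSelfAdjoint
  have cψ := continuous_gψ htt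
  have zψ : gψ t t' 0 = 0 := gψ_zero ht
  have cm := continuous_gm ht htt
  have zm : gm t t' 0 = 0 := gm_zero ht
  have cn2 := continuous_gn2 htt
  have zn2 : gn2 t t' 0 = 0 := gn2_zero ht
  have cl := continuous_gl ht htt
  have cl2 := continuous_gl2 (t := t) htt
  have cφ := continuous_gφ ht'
  have zφ : gφ t' 0 = 0 := gφ_zero ht'
  refine ⟨cfcₙ (gψ t t') K, cfcₙ (gm t t') K, cfcₙ (gn t t') K, cfcₙ (gn2 t t') K,
    cfcₙ (gφ t') K, posCut t' K, ⟨star_cfcₙ _ _, star_cfcₙ _ _, star_cfcₙ _ _, star_cfcₙ _ _⟩,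
    ⟨cfcₙ_nonneg fun s _ => gn_nonneg ht htt s, cfcₙ_nonneg fun s _ => gn2_nonneg htt s,
      posCut_nonneg _ _⟩, ⟨?_, ?_, ?_, ?_, ?_, ?_⟩, ?_, ?_, ?_, ?_⟩
  · rw [cmul_id sK cm zm]; congr 1; funext s; rw [mul_comm, id_mul_gm ht s]
  · rw [cmul_id sK cm zm, cmul K (by fun_prop) (by simp [zm]) cm zm,
      ← cfcₙ_add _ _ K cm.continuousOn zm cm.continuousOn zm,
      ← cfcₙ_sub _ _ K (by fun_prop) (by simp [zm]) (by fun_prop) (by simp [zm])]
    congr 1; funext s; rw [gn_eq s ht]; ring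
  · rw [cmul K cψ zψ cψ zψ, ← cfcₙ_add _ _ K cψ.continuousOn zψ cψ.continuousOn zψ,
      ← cfcₙ_sub _ _ K (by fun_prop) (by simp [zψ]) (by fun_prop) (by simp [zψ])]
    congr 1; funext s; simp only [gn2]; ring
  · rw [cmul K cψ zψ cφ zφ]; congr 1; funext s; exact gφ_gψ htt s
  · rw [cmul_id sK cφ zφ, cmul K (by fun_prop) (by simp [zφ]) cψ zψ]
    congr 1; funext s
    calc gφ t' s * s * gψ t t' s = s * (gψ t t' s * gφ t' s) := by ring
      _ = gφ t' s * s := by rw [gφ_gψ htt s, mul_comm]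
  · rw [cmul_id sK cφ zφ, cmul K (by fun_prop) (by simp [zφ]) cφ zφ]
    unfold posCut; congr 1; funext s; exact gφ_sq ht' s
  · rw [cmul_id sK cn2 zn2, id_cmul sK cn2 zn2, cmul K (by fun_prop) (by simp [zn2]) cn2 zn2]
    conv_lhs => arg 1; arg 1; arg 1; arg 1; rw [← cfcₙ_id' ℝ K sK]
    rw [← cfcₙ_sub _ _ K (by fun_prop) (by simp) (by fun_prop) (by simp),
      ← cfcₙ_sub _ _ K (by fun_prop) (by simp [zn2]) (by fun_prop) (by simp),
      ← cfcₙ_add _ _ K (by fun_prop) (by simp [zn2]) (by fun_prop) (by simp)]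
    refine norm_cfcₙ_le_of_nonneg K0 fun s hs => ?_
    obtain ⟨h0, h1⟩ := gψ_mem htt s
    have e3 : s - gn2 t t' s * s - s * gn2 t t' s + gn2 t t' s * s * gn2 t t' s
        = s * ((1 - gψ t t' s) ^ 4) := by simp only [gn2]; ring
    rw [e3, abs_of_nonneg (mul_nonneg hs (by positivity))]
    rcases le_or_gt t' s with h | h
    · rw [gψ_of_ge htt h]; simp [ht'.le]
    · calc s * (1 - gψ t t' s) ^ 4 ≤ s * 1 :=
            mul_le_mul_of_nonneg_left (pow_le_one₀ (by linarith) (by linarith)) hs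
        _ ≤ t' := by linarith
  · intro d
    set j : ℝ → ℝ := fun s => 1 / Real.sqrt (max s t') * gcut t' s
    have hj : Continuous j := (continuous_const.div (by fun_prop) fun s =>
      (Real.sqrt_pos.2 (lt_max_of_lt_right ht')).ne').mul (continuous_gcut t')
    have hj0 : j 0 = 0 := by simp [j, gcut]
    have ej : cfcₙ (gφ t') K = cfcₙ j K * cfcₙ (scut t') K := by
      rw [cmul K hj hj0 (continuous_scut t') (scut_zero ht')]
      congr 1; funext s
      rcases le_or_gt s t' with h | h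
      · simp [gφ_of_le h, scut_eq_zero h]
      · simp only [j, gφ]; rw [gcut_eq_one ht' h.le]; ring
    have bj : ‖cfcₙ j K‖ ≤ Real.sqrt (1 / t') := norm_cfcₙ_le_of_nonneg K0 fun s hs => by
      have g0 : 0 ≤ gcut t' s := le_min (div_nonneg (le_max_right _ _) ht'.le) zero_le_one
      have g1 : gcut t' s ≤ 1 := min_le_right _ _
      rw [abs_of_nonneg (mul_nonneg (by positivity) g0), Real.sqrt_div zero_le_one, Real.sqrt_one]
      calc 1 / Real.sqrt (max s t') * gcut t' s ≤ 1 / Real.sqrt (max s t') * 1 := by gcongr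
        _ ≤ 1 / Real.sqrt t' := by
            rw [mul_one]
            exact one_div_le_one_div_of_le (Real.sqrt_pos.2 ht') (Real.sqrt_le_sqrt (le_max_right _ _))
    have e : star (cfcₙ (scut t') K * d) * (cfcₙ (scut t') K * d) = star d * posCut t' K * d := by
      have : cfcₙ (scut t') K * cfcₙ (scut t') K = posCut t' K := by
        rw [cmul K (continuous_scut t') (scut_zero ht') (continuous_scut t') (scut_zero ht')]
        unfold posCut; congr 1; funext s; exact scut_mul_self t' s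
      rw [← this, star_mul, star_cfcₙ]; simp only [mul_assoc]
    rw [ej, mul_assoc, ← e, ← norm_sq_right]
    calc ‖cfcₙ j K * (cfcₙ (scut t') K * d)‖ ^ 2
        ≤ (Real.sqrt (1 / t') * ‖cfcₙ (scut t') K * d‖) ^ 2 := pow_le_pow_left₀ (norm_nonneg _)
          ((norm_mul_le _ _).trans (mul_le_mul_of_nonneg_right bj (norm_nonneg _))) 2
      _ = _ := by rw [mul_pow, Real.sq_sqrt (by positivity)]
  · have hQ := Near.of_sq_exact (posCut_nonneg t' K) (near_self (posCut_nonneg t' K))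
    have h1 := (hQ.trans_cuntz hgap).conj (cfcₙ (gl t t') K)
    have e : star (cfcₙ (gl t t') K) * posCut t K * cfcₙ (gl t t') K = cfcₙ (gn t t') K := by
      unfold posCut
      rw [star_cfcₙ, cmul K cl (gl_zero t t') (by fun_prop) (by simp [ht.le]),
        cmul K (f := fun s => gl t t' s * max (s - t) 0) (by fun_prop) (by simp [gl_zero]) cl
          (gl_zero t t')]
      congr 1; funext s; exact gl_sq ht htt s
    rwa [e, mul_zero] at h1
  · have hQ := Near.of_sq_exact (posCut_nonneg t' K) (near_self (posCut_nonneg t' K))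
    have h1 := (hQ.trans_cuntz hgap).conj (cfcₙ (gl2 t t') K)
    have e : star (cfcₙ (gl2 t t') K) * posCut t K * cfcₙ (gl2 t t') K = cfcₙ (gn2 t t') K := by
      unfold posCut
      rw [star_cfcₙ, cmul K cl2 (gl2_zero t t') (by fun_prop) (by simp [ht.le]),
        cmul K (f := fun s => gl2 t t' s * max (s - t) 0) (by fun_prop) (by simp [gl2_zero]) cl2
          (gl2_zero t t')]
      congr 1; funext s; exact gl2_sq ht htt s
    rwa [e, mul_zero] at h1

lemma err_bound {τ ρ Zn un vn q R Z U η σ ζ G : ℝ} (h0 : 0 ≤ ρ) (h1 : ρ ≤ R) (h2 : 0 ≤ Zn)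
    (h3 : Zn ≤ Z) (h4 : 0 ≤ un) (h5 : un ≤ U) (h6 : vn ≤ G) (hq : 0 ≤ q) (hqZ : q ≤ Z) (hτ : 0 < τ)
    (hR : 0 < R) (hZ : 0 < Z) (hU : 0 < U) (hη0 : 0 ≤ η) (hη : η ≤ τ / (4 * (R ^ 2 * (2 * Z))))
    (hσ : σ = τ / (4 * (R ^ 2 * Z * U))) (hG : 0 < G) (hζ : ζ = τ / (4 * G)) :
    ρ ^ 2 * (Zn * (σ * un) + η * (Zn + q)) + vn * ζ ≤ τ := by
  have σ0 : 0 ≤ σ := by rw [hσ]; positivity
  have ζ0 : 0 ≤ ζ := by rw [hζ]; positivity
  have k1 : ρ ^ 2 * (Zn * (σ * un)) ≤ R ^ 2 * (Z * (σ * U)) := by gcongr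
  have k2 : R ^ 2 * (Z * (σ * U)) = τ / 4 := by rw [hσ]; field_simp
  have k3 : ρ ^ 2 * (η * (Zn + q)) ≤ R ^ 2 * (η * (2 * Z)) := by gcongr; linarith
  have k4 : R ^ 2 * (η * (2 * Z)) ≤ τ / 4 := by
    rw [le_div_iff₀ (by positivity)] at hη; linarith
  have k5 : vn * ζ ≤ τ / 4 := by
    refine (mul_le_mul_of_nonneg_right h6 ζ0).trans_eq ?_
    rw [hζ]; field_simp
  rw [mul_add]; linarith

lemma cross_bound {W T mx my d d' Q : A} {η M μ : ℝ} (hM : 0 < M) (hWT : star W * T = star d * Q * d')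
    (h : ‖star d * Q * d'‖ ≤ η) (h1 : ‖mx‖ ≤ M) (h2 : ‖my‖ ≤ M) (hη : η ≤ μ / M ^ 2) :
    ‖star (W * mx) * (T * my)‖ ≤ μ := by
  have η0 : 0 ≤ η := (norm_nonneg _).trans h
  have : star (W * mx) * (T * my) = star mx * (star d * Q * d') * my := by
    rw [← hWT]; simp only [star_mul, mul_assoc]
  rw [this]
  refine (norm_mul3_le h).trans ?_
  rw [norm_star]
  rw [le_div_iff₀ (by positivity)] at hη
  calc ‖mx‖ * η * ‖my‖ ≤ M * η * M := by gcongr
    _ = η * M ^ 2 := by ring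
    _ ≤ μ := hη

/-- the two systems on the band -/
lemma gap_band (hA : IsPurelyInfinite A) {x y φ Q n n2 vx : A} (hx : star x = x) (hy : star y = y)
    (hφ : star φ = φ) (hQ0 : 0 ≤ Q) (hQ : φ * (y * (x * x) * y) * φ = Q) {t' : ℝ} (ht' : 0 < t')
    (hd : ∀ d : A, ‖φ * d‖ ^ 2 ≤ 1 / t' * ‖star d * Q * d‖)
    (hn : Near (Q * Q) 0 n) (hn2 : Near (Q * Q) 0 n2) {τ μ : ℝ} (hτ : 0 < τ) (hμ : 0 < μ) :
    ∃ e f : A, ‖star (x * (x * y * φ * e)) * (x * (x * y * φ * e)) - star vx * n * vx‖ ≤ τ ∧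
      ‖star (y * (φ * f)) * (y * (φ * f)) - star y * n2 * y‖ ≤ τ ∧
      ‖star (x * (x * y * φ * e)) * (y * (φ * f))‖ ≤ μ := by
  have Qs : star Q = Q := hQ0.isSelfAdjoint.star_eq
  set ζ := τ / (4 * (‖vx‖ ^ 2 + ‖y‖ ^ 2 + 1)) with hζd
  have hζ : 0 < ζ := by positivity
  obtain ⟨rn, hrn⟩ := hn ζ hζ
  obtain ⟨rm, hrm⟩ := hn2 ζ hζ
  rw [zero_add] at hrn hrm
  set R := ‖rn * vx‖ + ‖rm * y‖ + 1 with hRd
  have hR : 1 ≤ R := by linarith [norm_nonneg (rn * vx), norm_nonneg (rm * y)]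
  set Z₁ := ‖Q‖ + 1 with hZd
  have hZ1 : 1 ≤ Z₁ := by linarith [norm_nonneg Q]
  set U := (‖x * (x * y)‖ + ‖y‖ + 1) * (Real.sqrt (1 / t') * Z₁) with hUd
  have hU : 0 < U := by
    have := Real.sqrt_pos.2 (one_div_pos.2 ht'); positivity
  set δ := (τ / (4 * (R ^ 2 * Z₁ * U))) ^ 2 with hδd
  have hδ : 0 < δ := by positivity
  have sqδ : Real.sqrt δ = τ / (4 * (R ^ 2 * Z₁ * U)) := Real.sqrt_sq (by positivity)
  set M := Real.sqrt (1 / δ) * Z₁ * R with hMd
  have hM : 0 < M := by have := Real.sqrt_pos.2 (one_div_pos.2 hδ); positivity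
  set η := min 1 (min (τ / (4 * (R ^ 2 * (2 * Z₁)))) (μ / (M ^ 2))) with hηd
  have hη : 0 < η := lt_min one_pos (lt_min (by positivity) (by positivity))
  have hη1 : η ≤ 1 := min_le_left _ _
  obtain ⟨d₁, d₂, h11, h22, h12, h21⟩ := hA Q hQ0 η hη
  set W := x * (x * y * φ * d₂) with hWd
  set V := y * φ * d₂ with hVd
  set W₁ := x * (x * y * φ * d₁) with hW1d
  set T := y * φ * d₁ with hTd
  have eWV : star W * V = star d₂ * Q * d₂ := by
    rw [hWd, hVd, ← hQ]; simp only [star_mul, hx, hy, hφ, mul_assoc]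
  have eTW : star T * W₁ = star d₁ * Q * d₁ := by
    rw [hTd, hW1d, ← hQ]; simp only [star_mul, hy, hφ, mul_assoc]
  have eWT : star W * T = star d₂ * Q * d₁ := by
    rw [hWd, hTd, ← hQ]; simp only [star_mul, hx, hy, hφ, mul_assoc]
  have bZ : ∀ d : A, ‖star d * Q * d - Q‖ < η → ‖star d * Q * d‖ ≤ Z₁ := fun d hd' => by
    have := norm_le_norm_add_norm_sub' (star d * Q * d) Q
    linarith
  have nd : ∀ d : A, ‖star d * Q * d - Q‖ < η → ‖φ * d‖ ≤ Real.sqrt (1 / t') * Z₁ := by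
    intro d hd'
    refine le_of_abs_le (abs_le_of_sq_le_sq ?_ (by positivity))
    rw [mul_pow, Real.sq_sqrt (by positivity)]
    calc ‖φ * d‖ ^ 2 ≤ 1 / t' * ‖star d * Q * d‖ := hd d
      _ ≤ 1 / t' * Z₁ ^ 2 := by
          refine mul_le_mul_of_nonneg_left ((bZ d hd').trans ?_) (by positivity)
          nlinarith
  have bU : ∀ {z d : A}, ‖z‖ ≤ ‖x * (x * y)‖ + ‖y‖ + 1 → ‖star d * Q * d - Q‖ < η →
      ‖z * (φ * d)‖ ≤ U := fun hz hd' => (norm_mul_le _ _).trans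
    (mul_le_mul hz (nd _ hd') (norm_nonneg _) (by positivity))
  have bV : ‖V‖ ≤ U := by
    rw [hVd, mul_assoc]; exact bU (by linarith [norm_nonneg (x * (x * y))]) h22
  have bW₁ : ‖W₁‖ ≤ U := by
    have : W₁ = x * (x * y) * (φ * d₁) := by rw [hW1d]; simp only [mul_assoc]
    rw [this]; exact bU (by linarith [norm_nonneg y]) h11
  obtain ⟨mx, hmx, hax⟩ := side W V vx n rn (star d₂ * Q * d₂) Q hδ eWV.symm h22.le Qs hrn.le
  obtain ⟨my, hmy, hay⟩ := side T W₁ y n2 rm (star d₁ * Q * d₁) Q hδ eTW.symm h11.le Qs hrm.le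
  have R1 : ‖rn * vx‖ ≤ R := by linarith [norm_nonneg (rm * y)]
  have R2 : ‖rm * y‖ ≤ R := by linarith [norm_nonneg (rn * vx)]
  have hη2 : η ≤ τ / (4 * (R ^ 2 * (2 * Z₁))) := (min_le_right _ _).trans (min_le_left _ _)
  have err := fun {ρ Zn un vn : ℝ} (h0 : 0 ≤ ρ) (h1 : ρ ≤ R) (h2 : 0 ≤ Zn) (h3 : Zn ≤ Z₁)
      (h4 : 0 ≤ un) (h5 : un ≤ U) (h6 : vn ≤ ‖vx‖ ^ 2 + ‖y‖ ^ 2 + 1) =>
    err_bound (τ := τ) h0 h1 h2 h3 h4 h5 h6 (norm_nonneg Q) (by linarith : ‖Q‖ ≤ Z₁) hτ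
      (by linarith : 0 < R) (by linarith : 0 < Z₁) hU hη.le hη2 sqδ
      (by positivity : 0 < ‖vx‖ ^ 2 + ‖y‖ ^ 2 + 1) hζd
  have eW : x * (x * y * φ * (d₂ * mx)) = W * mx := by rw [hWd]; simp only [mul_assoc]
  have eT : y * (φ * (d₁ * my)) = T * my := by rw [hTd]; simp only [mul_assoc]
  refine ⟨d₂ * mx, d₁ * my, ?_, ?_, ?_⟩
  · rw [eW]
    exact hax.trans (err (norm_nonneg _) R1 (norm_nonneg _) (bZ d₂ h22) (norm_nonneg _) bV
      (by linarith [sq_nonneg ‖y‖]))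
  · rw [eT]
    exact hay.trans (err (norm_nonneg _) R2 (norm_nonneg _) (bZ d₁ h11) (norm_nonneg _) bW₁
      (by linarith [sq_nonneg ‖vx‖]))
  · rw [eW, eT]
    have bm1 : ‖mx‖ ≤ M := hmx.trans (by
      rw [hMd]; exact mul_le_mul (mul_le_mul_of_nonneg_left (bZ d₂ h22) (Real.sqrt_nonneg _))
        R1 (norm_nonneg _) (by positivity))
    have bm2 : ‖my‖ ≤ M := hmy.trans (by
      rw [hMd]; exact mul_le_mul (mul_le_mul_of_nonneg_left (bZ d₁ h11) (Real.sqrt_nonneg _))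
        R2 (norm_nonneg _) (by positivity))
    exact cross_bound hM eWT h21.le bm1 bm2 ((min_le_right _ _).trans (min_le_right _ _))

/-- the families attached to a gap `t < t'` -/
lemma gap_core (hA : IsPurelyInfinite A) {x y : A} (hx : 0 ≤ x) (hy : 0 ≤ y) {t t' : ℝ}
    (ht : 0 < t) (htt : t < t')
    (hgap : CuntzLE (posCut t (y * (x * x) * y)) (posCut t' (y * (x * x) * y)))
    {c κ B : ℝ} (hc : 0 < c) (hκ : 0 < κ) (hB : ‖x‖ + ‖y‖ + 1 ≤ B)
    (hsmall : Real.sqrt t' * B ^ 2 ≤ κ / 2) :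
    ∃ S S' P P' : A, 0 ≤ S ∧ 0 ≤ S' ∧ S = x * P ∧ S' = y * P' ∧ ‖S * S'‖ ≤ κ ∧
      Near (posCut c S) (4 * B * Real.sqrt (2 * c) + c) (x * x) ∧
      Near (posCut c S') (4 * B * Real.sqrt (2 * c) + c) (y * y) := by
  have ht' : 0 < t' := ht.trans htt
  have sx := hx.isSelfAdjoint.star_eq
  have sy := hy.isSelfAdjoint.star_eq
  have hX := norm_nonneg x
  have hY := norm_nonneg y
  have hB1 : 1 ≤ B := by linarith
  have K0 : 0 ≤ y * (x * x) * y := by
    have := star_left_conjugate_nonneg hx.isSelfAdjoint.mul_self_nonneg y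
    rwa [sy] at this
  obtain ⟨ψ, m, n, n2, φ, Q, ⟨ψs, ms, φs, n2s⟩, ⟨n0, n20, Q0⟩,
    ⟨emK, en, en2, eψφ, eφKψ, eQ⟩, hbd', hd, hnQ, hn2Q⟩ := gap_facts K0 ht htt hgap
  set τ := min c 1
  have hτ : 0 < τ := lt_min hc one_pos
  have hτ1 : τ ≤ 1 := min_le_right _ _
  have hτc : τ ≤ c := min_le_left _ _
  obtain ⟨e, f, eax, eay, bpq⟩ := gap_band hA (vx := y * (x * x)) sx sy φs Q0 eQ ht' hd hnQ hn2Q
    hτ (show 0 < κ / (2 * B ^ 2) by positivity)
  obtain ⟨a, had⟩ : ∃ a : A, a = x - x * (x * y * m * y * x) := ⟨_, rfl⟩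
  obtain ⟨b, hbd⟩ : ∃ b : A, b = y - y * ψ := ⟨_, rfl⟩
  obtain ⟨p, hpd⟩ : ∃ p : A, p = x * (x * y * φ * e) := ⟨_, rfl⟩
  obtain ⟨q, hqd⟩ : ∃ q : A, q = y * (φ * f) := ⟨_, rfl⟩
  rw [← hpd] at eax bpq
  rw [← hqd] at eay bpq
  have ea : a * star a = x * x - star (y * (x * x)) * n * (y * (x * x)) := by
    rw [← en, had]
    simp only [star_sub, star_mul, sx, sy, ms, mul_sub, sub_mul, mul_add, add_mul, mul_assoc]
    abel
  have eb : b * star b = y * y - star y * n2 * y := by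
    rw [sy, ← en2, hbd]
    simp only [star_sub, star_mul, sy, ψs, mul_sub, sub_mul, mul_add, add_mul, mul_assoc]
    abel
  have e2 : star a = x - x * y * m * y * x * x := by
    rw [had]; simp only [star_sub, star_mul, sx, sy, ms, mul_assoc]
  have e1 : x * y * m * y * x * x * y = x * y * ψ := by
    rw [← emK]; simp only [mul_assoc]
  have eab : star a * b = x * y - x * y * n2 := by
    have : star a * b = x * y - x * y * ψ - (x * y * m * y * x * x * y)
        + (x * y * m * y * x * x * y) * ψ := by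
      rw [e2, hbd]; simp only [mul_sub, sub_mul, mul_assoc]; abel
    rw [this, e1, ← en2]; simp only [mul_sub, mul_add, mul_assoc]; abel
  have bab : ‖star a * b‖ ≤ Real.sqrt t' := by
    apply Real.le_sqrt_of_sq_le
    rw [eab, norm_sq_right]
    refine le_of_eq_of_le (congrArg _ ?_) hbd'
    simp only [star_sub, star_mul, sx, sy, n2s, mul_sub, sub_mul, mul_assoc]; abel
  have eaq : star a * q = 0 := by
    have e3 : x * y * m * y * x * x * y * φ = x * y * φ := by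
      rw [e1, mul_assoc, eψφ]
    calc star a * q = (x * y * φ - x * y * m * y * x * x * y * φ) * f := by
          rw [e2, hqd]; simp only [sub_mul, mul_assoc]
      _ = 0 := by rw [e3, sub_self, zero_mul]
  have epb : star p * b = 0 := by
    calc star p * b = star e * (φ * (y * (x * x) * y) - φ * (y * (x * x) * y) * ψ) := by
          rw [hpd, hbd]; simp only [star_mul, sx, sy, φs, mul_sub, mul_assoc]
      _ = 0 := by rw [eφKψ, sub_self, mul_zero]
  have norm_sq_bound : ∀ {z p q : A}, 0 ≤ q → z * star z = p - q → ‖z‖ ^ 2 ≤ ‖p‖ ∧ ‖q‖ ≤ ‖p‖ := by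
    intro z p q hq he
    have hzz : 0 ≤ p - q := he ▸ mul_star_self_nonneg z
    refine ⟨?_, CStarAlgebra.norm_le_norm_of_nonneg_of_le hq (sub_nonneg.1 hzz)⟩
    rw [norm_sq_left, he]
    exact CStarAlgebra.norm_le_norm_of_nonneg_of_le hzz (sub_le_self _ hq)
  obtain ⟨na, nax⟩ := norm_sq_bound (star_left_conjugate_nonneg n0 _) ea
  obtain ⟨nb, nay⟩ := norm_sq_bound (star_left_conjugate_nonneg n20 _) eb
  have hxx : ‖x * x‖ ≤ ‖x‖ ^ 2 := (norm_mul_le _ _).trans_eq (sq _).symm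
  have hyy : ‖y * y‖ ≤ ‖y‖ ^ 2 := (norm_mul_le _ _).trans_eq (sq _).symm
  have bound : ∀ {z : A} {r : ℝ}, ‖z‖ ^ 2 ≤ r → r ≤ B ^ 2 → ‖z‖ ≤ B := fun h h' =>
    le_of_abs_le (abs_le_of_sq_le_sq (h.trans h') (by linarith))
  have hxB : ‖x‖ ^ 2 + 1 ≤ B ^ 2 := by nlinarith
  have hyB : ‖y‖ ^ 2 + 1 ≤ B ^ 2 := by nlinarith
  have naB : ‖a‖ ≤ B := bound na (by linarith)
  have nbB : ‖b‖ ≤ B := bound nb (by linarith)
  have npB : ‖p‖ ≤ B := bound (r := ‖x‖ ^ 2 + 1) (by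
    rw [norm_sq_right]
    have := norm_le_norm_add_norm_sub' (star p * p) (star (y * (x * x)) * n * (y * (x * x)))
    linarith) hxB
  have nqB : ‖q‖ ≤ B := bound (r := ‖y‖ ^ 2 + 1) (by
    rw [norm_sq_right]
    have := norm_le_norm_add_norm_sub' (star q * q) (star y * n2 * y)
    linarith) hyB
  set S := a * star a + p * star p with hSd
  set S' := b * star b + q * star q with hS'd
  have S0 : 0 ≤ S := add_nonneg (mul_star_self_nonneg _) (mul_star_self_nonneg _)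
  have S'0 : 0 ≤ S' := add_nonneg (mul_star_self_nonneg _) (mul_star_self_nonneg _)
  refine ⟨S, S', star a - x * y * m * y * x * star a + x * y * φ * e * star p,
    star b - ψ * star b + φ * f * star q, S0, S'0, ?_, ?_, ?_, ?_, ?_⟩
  · rw [hSd, mul_add, mul_sub]
    conv_lhs => arg 1; arg 1; rw [had]
    conv_lhs => arg 2; arg 1; rw [hpd]
    simp only [sub_mul, mul_assoc]
  · rw [hS'd, mul_add, mul_sub]
    conv_lhs => arg 1; arg 1; rw [hbd]
    conv_lhs => arg 2; arg 1; rw [hqd]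
    simp only [sub_mul, mul_assoc]
  · have e : S * S' = a * (star a * b) * star b + p * (star p * q) * star q := by
      calc S * S' = a * (star a * b) * star b + a * (star a * q) * star q
            + (p * (star p * b) * star b + p * (star p * q) * star q) := by
              simp only [hSd, hS'd, mul_add, add_mul, mul_assoc]; abel
        _ = _ := by rw [eaq, epb]; simp
    rw [e]
    refine (norm_add_le _ _).trans ?_
    have k1 : ‖a * (star a * b) * star b‖ ≤ B * Real.sqrt t' * B := by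
      refine (norm_mul3_le bab).trans ?_
      rw [norm_star]; gcongr
    have k2 : ‖p * (star p * q) * star q‖ ≤ B * (κ / (2 * B ^ 2)) * B := by
      refine (norm_mul3_le bpq).trans ?_
      rw [norm_star]; gcongr
    have k3 : B * Real.sqrt t' * B ≤ κ / 2 := le_of_eq_of_le (by ring) hsmall
    have k4 : B * (κ / (2 * B ^ 2)) * B = κ / 2 := by field_simp
    linarith
  · have h1 := (near_both hc S0 (b := a) (le_add_of_nonneg_right (mul_star_self_nonneg p))).2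
    have h2 := ((near_both hc S0 (b := p)
      (le_add_of_nonneg_left (mul_star_self_nonneg a))).1).dist
        (b := star (y * (x * x)) * n * (y * (x * x)))
    have h3 := Near.add (hA _ (posCut_nonneg c S)) h1 h2
    rw [ea, sub_add_cancel] at h3
    refine h3.mono ?_
    have : 2 * ‖a‖ * Real.sqrt (2 * c) ≤ 2 * B * Real.sqrt (2 * c) := by gcongr
    have : 2 * ‖p‖ * Real.sqrt (2 * c) ≤ 2 * B * Real.sqrt (2 * c) := by gcongr
    linarith
  · have h1 := (near_both hc S'0 (b := b) (le_add_of_nonneg_right (mul_star_self_nonneg q))).2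
    have h2 := ((near_both hc S'0 (b := q)
      (le_add_of_nonneg_left (mul_star_self_nonneg b))).1).dist (b := star y * n2 * y)
    have h3 := Near.add (hA _ (posCut_nonneg c S')) h1 h2
    rw [eb, sub_add_cancel] at h3
    refine h3.mono ?_
    have : 2 * ‖b‖ * Real.sqrt (2 * c) ≤ 2 * B * Real.sqrt (2 * c) := by gcongr
    have : 2 * ‖q‖ * Real.sqrt (2 * c) ≤ 2 * B * Real.sqrt (2 * c) := by gcongr
    linarith

lemma posCut_sq_close {z : A} {r B ε : ℝ} (hz : 0 ≤ z) (hr : 0 ≤ r) (hrB : r * (16 * B) ≤ ε)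
    (hzB : ‖z‖ ≤ B) : ‖posCut r z * posCut r z - z * z‖ ≤ ε / 8 := by
  have hsub : ‖posCut r z - z‖ ≤ r := by
    unfold posCut
    conv_lhs => arg 1; arg 2; rw [← cfcₙ_id' ℝ z hz.isSelfAdjoint]
    rw [← cfcₙ_sub _ _ z (by fun_prop) (by simp [hr]) (by fun_prop) (by simp)]
    refine norm_cfcₙ_le_of_nonneg hz fun s hs => ?_
    rw [abs_le]
    constructor
    · linarith [le_max_left (s - r) 0]
    · linarith [max_le (by linarith : s - r ≤ s) hs]
  have h1 := norm_sub_sq_le (posCut r z) z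
  rw [(posCut_nonneg r z).isSelfAdjoint.star_eq, hz.isSelfAdjoint.star_eq] at h1
  refine h1.trans ?_
  have := posCut_norm_le hr hz
  calc ‖posCut r z - z‖ * (‖posCut r z‖ + ‖z‖) ≤ r * (B + B) :=
        mul_le_mul hsub (by linarith) (by positivity) hr
    _ ≤ ε / 8 := by linarith

lemma posCut_back {z : A} {r : ℝ} (hz : 0 ≤ z) (hr : 0 ≤ r) (s' : A) :
    ∃ s : A, z * s = posCut r z * s' := by
  rcases eq_or_lt_of_le hr with h | h
  · refine ⟨s', ?_⟩
    have : posCut r z = z := by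
      unfold posCut
      conv_rhs => rw [← cfcₙ_id' ℝ z hz.isSelfAdjoint]
      refine cfcₙ_congr fun s hs => ?_
      have := quasispectrum_nonneg_of_nonneg z hz s hs
      subst h; simp [this]
    rw [this]
  · have hg : Continuous fun s : ℝ => max (s - r) 0 / max s r :=
      Continuous.div (by fun_prop) (by fun_prop) fun s => (lt_max_of_lt_right h).ne'
    refine ⟨cfcₙ (fun s : ℝ => max (s - r) 0 / max s r) z * s', ?_⟩
    rw [← mul_assoc, id_cmul hz.isSelfAdjoint hg (by simp [hr])]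
    unfold posCut
    congr 2; funext s
    rcases le_or_gt s r with h' | h'
    · simp [max_eq_right (sub_nonpos.2 h')]
    · rw [max_eq_left h'.le]; field_simp [show s ≠ 0 by linarith]

lemma prod_final {S S' r r' x y x' y' : A} {c ε κ B : ℝ} (hc : 0 < c) (hε : 0 < ε) (hS : 0 ≤ S)
    (hS' : 0 ≤ S') (hprod : ‖S * S'‖ ≤ κ) (hκ : κ = ε * c ^ 2 / (2 * (B ^ 2 + ε + 1)))
    (h1 : ‖cfcₙ (scut c) S * r‖ ^ 2 ≤ ‖x'‖ ^ 2 + ε / 2)
    (h2 : ‖cfcₙ (scut c) S' * r'‖ ^ 2 ≤ ‖y'‖ ^ 2 + ε / 2) (hx : ‖x'‖ ≤ ‖x‖) (hy : ‖y'‖ ≤ ‖y‖)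
    (hB : B = ‖x‖ + ‖y‖ + 1) :
    ‖star (cfcₙ (scut c) S * r) * (cfcₙ (scut c) S' * r')‖ < ε := by
  have hV : 0 < B ^ 2 + ε + 1 := by positivity
  have bW : ‖cfcₙ (scut c) S * r‖ * ‖cfcₙ (scut c) S' * r'‖ ≤ B ^ 2 + ε + 1 := by
    have k1 := pow_le_pow_left₀ (norm_nonneg x') hx 2
    have k2 := pow_le_pow_left₀ (norm_nonneg y') hy 2
    have k3 : ‖x‖ ^ 2 + ‖y‖ ^ 2 ≤ B ^ 2 := by
      rw [hB]; nlinarith [norm_nonneg x, norm_nonneg y]
    nlinarith [sq_nonneg (‖cfcₙ (scut c) S * r‖ - ‖cfcₙ (scut c) S' * r'‖)]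
  refine lt_of_le_of_lt (product_le hc hS hS' (by rw [hκ]; positivity) hprod) ?_
  calc _ ≤ (B ^ 2 + ε + 1) * (κ / c ^ 2) :=
        mul_le_mul_of_nonneg_right bW (by rw [hκ]; positivity)
    _ = ε / 2 := by rw [hκ]; field_simp
    _ < ε := by linarith

/-- the pairing condition for `x, y` when some cut-downs have a gap at every small level -/
lemma pair_gap (hA : IsPurelyInfinite A) {x y : A} (hx : 0 ≤ x) (hy : 0 ≤ y)
    (hG : ∀ δ : ℝ, 0 < δ → ∃ a b t t' : ℝ, 0 ≤ a ∧ a ≤ δ ∧ 0 ≤ b ∧ b ≤ δ ∧ 0 < t ∧ t < t' ∧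
      t' ≤ δ ∧ CuntzLE (posCut t (posCut b y * (posCut a x * posCut a x) * posCut b y))
        (posCut t' (posCut b y * (posCut a x * posCut a x) * posCut b y)))
    {ε : ℝ} (hε : 0 < ε) :
    ∃ s t : A, ‖star s * (x * x) * s - x * x‖ < ε ∧ ‖star t * (y * y) * t - y * y‖ < ε ∧
      ‖star s * (x * y) * t‖ < ε := by
  set B := ‖x‖ + ‖y‖ + 1 with hBd
  have hX := norm_nonneg x
  have hY := norm_nonneg y
  have hB1 : 1 ≤ B := by linarith
  set q := min 1 (ε / (32 * B)) with hqd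
  have hq0 : 0 < q := lt_min one_pos (by positivity)
  have hq1 : q ≤ 1 := min_le_left _ _
  have hqB : q * (32 * B) ≤ ε := by
    have : q ≤ ε / (32 * B) := min_le_right _ _
    rwa [le_div_iff₀ (by positivity)] at this
  set c := q ^ 2 / 2 with hcd
  have hc : 0 < c := by positivity
  have hsc : Real.sqrt (2 * c) = q := by
    rw [show 2 * c = q ^ 2 by rw [hcd]; ring, Real.sqrt_sq hq0.le]
  have hcq : c ≤ q := by rw [hcd]; nlinarith
  set V := B ^ 2 + ε + 1
  have hV : 0 < V := by positivity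
  set κ := ε * c ^ 2 / (2 * V) with hκd
  have hκ : 0 < κ := by positivity
  set δ₀ := min (min 1 (ε / (16 * B))) ((κ / (2 * B ^ 2)) ^ 2) with hδd
  have hδ₀ : 0 < δ₀ := lt_min (lt_min one_pos (by positivity)) (by positivity)
  obtain ⟨a, b, t, t', ha0, haδ, hb0, hbδ, ht, htt, ht'δ, hgap⟩ := hG δ₀ hδ₀
  have small : ∀ {r : ℝ}, r ≤ δ₀ → r * (16 * B) ≤ ε := fun hr => by
    have := hr.trans ((min_le_left _ _).trans (min_le_right _ _))
    rwa [le_div_iff₀ (by positivity)] at this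
  set x' := posCut a x
  set y' := posCut b y
  have hx' : 0 ≤ x' := posCut_nonneg _ _
  have hy' : 0 ≤ y' := posCut_nonneg _ _
  have nx' : ‖x'‖ ≤ ‖x‖ := posCut_norm_le ha0 hx
  have ny' : ‖y'‖ ≤ ‖y‖ := posCut_norm_le hb0 hy
  have hsmall : Real.sqrt t' * B ^ 2 ≤ κ / 2 := by
    have h1 : Real.sqrt t' ≤ κ / (2 * B ^ 2) := by
      refine (Real.sqrt_le_sqrt (ht'δ.trans (min_le_right _ _))).trans ?_
      rw [Real.sqrt_sq (by positivity)]
    rw [le_div_iff₀ (by positivity)] at h1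
    linarith
  obtain ⟨S, S', P, P', hS, hS', hP, hP', hprod, nS, nS'⟩ :=
    gap_core hA hx' hy' ht htt hgap hc hκ (show ‖x'‖ + ‖y'‖ + 1 ≤ B by linarith) hsmall
  obtain ⟨r, hr⟩ := nS (ε / 8) (by positivity)
  obtain ⟨r', hr'⟩ := nS' (ε / 8) (by positivity)
  rw [hsc] at hr hr'
  have he : 4 * B * q + c + ε / 8 ≤ ε / 2 := by nlinarith
  obtain ⟨s₀, hs1, hs2, hs3⟩ := extract hc hx' hS hP (hr.trans_le he)
  obtain ⟨t₀, ht1, ht2, ht3⟩ := extract hc hy' hS' hP' (hr'.trans_le he)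
  obtain ⟨s, hs⟩ := posCut_back hx ha0 s₀
  obtain ⟨u, hu⟩ := posCut_back hy hb0 t₀
  have sx := hx.isSelfAdjoint.star_eq
  have sy := hy.isSelfAdjoint.star_eq
  have sx' := hx'.isSelfAdjoint.star_eq
  have sy' := hy'.isSelfAdjoint.star_eq
  have es : star s * (x * x) * s = star s₀ * (x' * x') * s₀ :=
    calc star s * (x * x) * s = star (x * s) * (x * s) := by simp only [star_mul, sx, mul_assoc]
      _ = star (x' * s₀) * (x' * s₀) := by rw [hs]
      _ = _ := by simp only [star_mul, sx', mul_assoc]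
  have et : star u * (y * y) * u = star t₀ * (y' * y') * t₀ :=
    calc star u * (y * y) * u = star (y * u) * (y * u) := by simp only [star_mul, sy, mul_assoc]
      _ = star (y' * t₀) * (y' * t₀) := by rw [hu]
      _ = _ := by simp only [star_mul, sy', mul_assoc]
  refine ⟨s, u, ?_, ?_, ?_⟩
  · rw [es]
    have := norm_sub_le_norm_sub_add_norm_sub (star s₀ * (x' * x') * s₀) (x' * x') (x * x)
    linarith [posCut_sq_close hx ha0 (small haδ) (show ‖x‖ ≤ B by linarith)]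
  · rw [et]
    have := norm_sub_le_norm_sub_add_norm_sub (star t₀ * (y' * y') * t₀) (y' * y') (y * y)
    linarith [posCut_sq_close hy hb0 (small hbδ) (show ‖y‖ ≤ B by linarith)]
  · set W := cfcₙ (scut c) S * r
    set T := cfcₙ (scut c) S' * r'
    have e0 : star s * (x * y) * u = star W * T := by
      rw [show star s * (x * y) * u = star (x * s) * (y * u) by
        simp only [star_mul, sx, mul_assoc], hs, hu, hs2, ht2]
    rw [e0]
    exact prod_final hc hε hS hS' hprod hκd hs3 ht3 nx' ny' hBd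

end Vale.Agent.P133
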