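import Vale.Agent.P133.Basic

set_option linter.unusedSectionVars false

namespace Vale.Agent.P133

variable {A : Type*} [NonUnitalCStarAlgebra A] [PartialOrder A] [StarOrderedRing A]

/-- clamp between `a` and `2a` -/
noncomputable def kf (a t : ℝ) : ℝ := ramp a t / max t a

lemma continuous_kf {a : ℝ} (ha : 0 < a) : Continuous (kf a) :=
  (continuous_ramp a).div (by fun_prop) fun t => (lt_max_of_lt_right ha).ne'

lemma kf_zero (a : ℝ) : kf a 0 = 0 := by simp [kf, ramp_zero]

lemma id_mul_kf {a : ℝ} (ha : 0 < a) (t : ℝ) : t * kf a t = ramp a t := by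
  rcases le_or_gt t a with h | h
  · simp [kf, ramp_eq_zero ha h]
  · rw [kf, max_eq_left h.le]; field_simp [show t ≠ 0 by linarith]

/-- a projection below `y` is `star v * v` for some `v` in `y A` -/
lemma exists_partial_isometry {y p : A} (hy : 0 ≤ y) (hp : IsStarProjection p)
    (h : CuntzLE p y) : ∃ u : A, star (y * u) * (y * u) = p := by
  have sy := hy.isSelfAdjoint
  obtain ⟨r₀, hr₀⟩ := h (1 / 8) (by norm_num)
  set R := ‖r₀‖ ^ 2 + 1
  have hR : 0 < R := by positivity
  obtain ⟨w, hw⟩ : ∃ w : A, ‖star w * (y * y) * w - p‖ < 1 / 2 := by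
    set δ := 1 / (8 * R)
    have hδ : 0 < δ := by positivity
    set k : ℝ → ℝ := fun t => t / (max t δ * Real.sqrt (max t δ))
    have hm : ∀ t : ℝ, 0 < max t δ := fun t => lt_max_of_lt_right hδ
    have hk : Continuous k := continuous_id.div (by fun_prop) fun t => by
      have := hm t; have := Real.sqrt_pos.2 (hm t); positivity
    have hk0 : k 0 = 0 := by simp [k]
    refine ⟨cfcₙ k y * r₀, ?_⟩
    have e1 : cfcₙ k y * (y * y) * cfcₙ k y = cfcₙ (fun t => k t * t * (t * k t)) y := by
      rw [← mul_assoc, mul_assoc (cfcₙ k y * y), cmul_id sy hk hk0, id_cmul sy hk hk0]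
      exact cmul y (by fun_prop) (by simp) (by fun_prop) (by simp)
    have b : ‖cfcₙ k y * (y * y) * cfcₙ k y - y‖ ≤ δ := by
      rw [e1]
      conv_lhs => arg 1; arg 2; rw [← cfcₙ_id' ℝ y sy]
      rw [← cfcₙ_sub _ _ y (by fun_prop) (by simp) (by fun_prop) (by simp)]
      refine norm_cfcₙ_le_of_nonneg hy fun t ht => ?_
      have e2 : k t * t * (t * k t) = t ^ 4 / (max t δ) ^ 3 := by
        have hs := Real.mul_self_sqrt (hm t).le
        have := hm t
        have := Real.sqrt_pos.2 (hm t)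
        simp only [k]
        field_simp
        rw [Real.sq_sqrt (hm t).le]
      rw [e2]
      rcases le_or_gt δ t with h' | h'
      · rw [max_eq_left h']
        have : t ≠ 0 := by linarith
        have : t ^ 4 / t ^ 3 = t := by field_simp
        rw [this]; simp [hδ.le]
      · rw [max_eq_right h'.le]
        have h0 : 0 ≤ t ^ 4 / δ ^ 3 := by positivity
        have h1 : t ^ 4 / δ ^ 3 ≤ δ := by
          rw [div_le_iff₀ (by positivity)]
          calc t ^ 4 ≤ δ ^ 4 := pow_le_pow_left₀ ht h'.le 4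
            _ = δ * δ ^ 3 := by ring
        rw [abs_le]; constructor <;> linarith
    have e3 : star (cfcₙ k y * r₀) * (y * y) * (cfcₙ k y * r₀) - p =
        star r₀ * (cfcₙ k y * (y * y) * cfcₙ k y - y) * r₀ + (star r₀ * y * r₀ - p) := by
      simp only [star_mul, star_cfcₙ, mul_sub, sub_mul, mul_assoc]; abel
    rw [e3]
    refine lt_of_le_of_lt (norm_add_le _ _) ?_
    have b2 := (norm_conj_le r₀ (cfcₙ k y * (y * y) * cfcₙ k y - y)).trans
      (mul_le_mul_of_nonneg_left b (sq_nonneg _))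
    have b3 : ‖r₀‖ ^ 2 * δ ≤ 1 / 8 := by
      simp only [δ]
      rw [mul_one_div, div_le_div_iff₀ (by positivity) (by norm_num)]
      simp only [R]; nlinarith
    linarith
  have hps := hp.isSelfAdjoint.star_eq
  have hpp : p * p = p := hp.isIdempotentElem
  set u₀ := y * (w * p) with hu₀
  set c := star u₀ * u₀ with hc
  have c0 : 0 ≤ c := star_mul_self_nonneg _
  have sc := c0.isSelfAdjoint
  have hcp : c * p = c := by
    simp only [hc, hu₀, star_mul, mul_assoc, hpp]
  have hpc : p * c = c := by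
    simp only [hc, hu₀, star_mul, hps, ← mul_assoc, hpp]
  have hdist : ‖c - p‖ < 1 / 2 := by
    have e : c - p = star p * (star w * (y * y) * w - p) * p := by
      simp only [hc, hu₀, star_mul, hps, sy.star_eq, mul_sub, sub_mul, mul_assoc, hpp]
    rw [e]
    refine lt_of_le_of_lt (norm_conj_le _ _) ?_
    have : ‖p‖ ≤ 1 := IsStarProjection.norm_le p hp
    have := norm_nonneg (star w * (y * y) * w - p)
    nlinarith [norm_nonneg p, pow_le_one₀ (n := 2) (norm_nonneg p) ‹‖p‖ ≤ 1›]
  have ha : (0:ℝ) < 1 / 8 := by norm_num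
  set f := ramp (1 / 8 : ℝ)
  have hf : Continuous f := continuous_ramp _
  have hf0 : f 0 = 0 := ramp_zero _
  set F := cfcₙ f c
  have hFk : F = c * cfcₙ (kf (1/8)) c := by
    rw [id_cmul sc (continuous_kf ha) (kf_zero _)]
    exact cfcₙ_congr fun t _ => (id_mul_kf ha t).symm
  have hpF : p * F = F := by rw [hFk, ← mul_assoc, hpc]
  have hcF : c * F = c := by
    set k : ℝ → ℝ := fun t => t - t * f t
    have hk : Continuous k := by fun_prop
    have hk0 : k 0 = 0 := by simp [k]
    set K := cfcₙ k c with hK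
    have hKe : K = c - c * F := by
      rw [hK, cfcₙ_sub _ _ c (by fun_prop) (by simp) (by fun_prop) (by simp), cfcₙ_id' ℝ c sc,
        id_cmul sc hf hf0]
    have hpK : p * K = K := by rw [hKe, mul_sub, ← mul_assoc p c, hpc]
    have hKs : star K = K := star_cfcₙ _ _
    have h1 : ‖K * c * K‖ ≤ (1 / 4) * ‖K‖ ^ 2 := by
      rw [hK, cmul_id sc hk hk0, cmul c (by fun_prop) (by simp) hk hk0, ← hK]
      refine norm_cfcₙ_le fun t ht => ?_
      have ht0 := quasispectrum_nonneg_of_nonneg c c0 t ht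
      have hb : ‖k t‖ ≤ ‖K‖ := norm_apply_le_norm_cfcₙ k c ht hk.continuousOn hk0 sc
      rw [Real.norm_eq_abs] at hb ⊢
      rcases le_or_gt (1/4 : ℝ) t with h | h
      · have : k t = 0 := by
          simp only [k, f]; rw [ramp_eq_one ha (by linarith)]; ring
        simp [this]
      · rw [abs_mul, abs_mul, abs_of_nonneg ht0]
        nlinarith [abs_nonneg (k t), mul_le_mul hb hb (abs_nonneg (k t)) (norm_nonneg K)]
    have h2 : K * c * K = K * K + K * (c - p) * K := by
      rw [mul_sub, sub_mul, mul_assoc K p K, hpK]; abel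
    have h3 : ‖K‖ ^ 2 ≤ ‖K * c * K‖ + ‖K * (c - p) * K‖ := by
      rw [norm_sq_right, hKs]
      have : K * K = K * c * K - K * (c - p) * K := by rw [h2]; abel
      rw [this]; exact norm_sub_le _ _
    have h4 := norm_mul3_le (a := K) (c := K) (le_refl ‖c - p‖)
    have h5 : ‖K‖ = 0 := by
      by_contra h0
      have : 0 < ‖K‖ := lt_of_le_of_ne (norm_nonneg _) (Ne.symm h0)
      nlinarith
    rw [norm_eq_zero, hKe, sub_eq_zero] at h5
    exact h5.symm
  have hFp : F = p := by
    have e : (c - p) * (p - F) = -(p - F) := by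
      rw [sub_mul, mul_sub, mul_sub, hcp, hcF, hpp, hpF]; abel
    have h1 : ‖p - F‖ ≤ ‖c - p‖ * ‖p - F‖ := by
      rw [← norm_neg (p - F), ← e]
      calc ‖(c - p) * (p - F)‖ ≤ ‖c - p‖ * ‖p - F‖ := norm_mul_le _ _
        _ = _ := by rw [e, norm_neg]
    have h0 : ‖p - F‖ = 0 := by nlinarith [norm_nonneg (p - F)]
    rw [norm_eq_zero, sub_eq_zero] at h0
    exact h0.symm
  set g : ℝ → ℝ := fun t => Real.sqrt (f t) / Real.sqrt (max t (1/8))
  have hg : Continuous g := (hf.sqrt).div (by fun_prop) fun t =>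
    (Real.sqrt_pos.2 (lt_max_of_lt_right ha)).ne'
  have hg0 : g 0 = 0 := by simp [g, hf0]
  refine ⟨w * p * cfcₙ g c, ?_⟩
  have e : y * (w * p * cfcₙ g c) = u₀ * cfcₙ g c := by rw [hu₀]; simp only [mul_assoc]
  rw [e, star_mul, star_cfcₙ, mul_assoc, ← mul_assoc (star u₀), ← hc, ← hFp, id_cmul sc hg hg0,
    cmul c hg hg0 (by fun_prop) (by simp)]
  congr 1; funext t
  simp only [g]
  rcases le_or_gt t (1/8) with h | h
  · have h0 : f t = 0 := ramp_eq_zero ha h
    simp [h0]
  · rw [max_eq_left h.le]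
    have : 0 < t := by linarith
    have h1 : f t / t * t = f t := by field_simp
    calc Real.sqrt (f t) / Real.sqrt t * (t * (Real.sqrt (f t) / Real.sqrt t))
        = (Real.sqrt (f t) * Real.sqrt (f t)) / (Real.sqrt t * Real.sqrt t) * t := by ring
      _ = f t := by rw [Real.mul_self_sqrt (ramp_nonneg _ _), Real.mul_self_sqrt this.le]; exact h1

lemma norm_star_mul_le_one {v p : A} (hp : IsStarProjection p) (h : star v * v = p) : ‖v‖ ≤ 1 := by
  have h1 : ‖v‖ ^ 2 ≤ 1 := by rw [norm_sq_right, h]; exact IsStarProjection.norm_le p hp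
  nlinarith [norm_nonneg v]

end Vale.Agent.P133
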